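import Vale.Agent.Lib.P262B.Signs
import Vale.Agent.Lib.P262.Defs

open Real

namespace Vale.Agent.Lib.P262B

section
variable {d : ℕ}

/-- vectors with sign `+` in order -/
def pl : List (Eu d × Bool) → List (Eu d)
  | [] => []
  | (v, true) :: t => v :: pl t
  | (_, false) :: t => pl t

/-- vectors with sign `-` in order -/
def mi : List (Eu d × Bool) → List (Eu d)
  | [] => []
  | (_, true) :: t => mi t
  | (v, false) :: t => v :: mi t

lemma pl_add_mi (T : List (Eu d × Bool)) : (pl T).sum + (mi T).sum = (T.map Prod.fst).sum := by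
  induction T with
  | nil => simp [pl, mi]
  | cons q t ih =>
    rcases q with ⟨v, b⟩
    cases b
    · simp only [pl, mi, List.map_cons, List.sum_cons]
      rw [← ih]
      abel
    · simp only [pl, mi, List.map_cons, List.sum_cons]
      rw [← ih]
      abel

lemma pl_sub_mi (T : List (Eu d × Bool)) : (pl T).sum - (mi T).sum = (T.map (sv id)).sum := by
  induction T with
  | nil => simp [pl, mi]
  | cons q t ih =>
    rcases q with ⟨v, b⟩
    cases b
    · simp only [pl, mi, List.map_cons, List.sum_cons, sv, Bool.false_eq_true, if_false, id]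
      rw [← ih]
      abel
    · simp only [pl, mi, List.map_cons, List.sum_cons, sv, if_true, id]
      rw [← ih]
      abel

lemma pl_take (T : List (Eu d × Bool)) (j : ℕ) : ∃ k, (pl T).take j = pl (T.take k) := by
  induction T generalizing j with
  | nil => exact ⟨0, by simp [pl]⟩
  | cons q t ih =>
    rcases q with ⟨v, b⟩
    cases b
    · obtain ⟨k, hk⟩ := ih j
      refine ⟨k + 1, ?_⟩
      simp only [pl, List.take_succ_cons]
      exact hk
    · cases j with
      | zero => exact ⟨0, by simp [pl]⟩
      | succ j =>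
        obtain ⟨k, hk⟩ := ih j
        refine ⟨k + 1, ?_⟩
        simp only [pl, List.take_succ_cons, hk]

lemma mi_take (T : List (Eu d × Bool)) (j : ℕ) : ∃ k, (mi T).take j = mi (T.take k) := by
  induction T generalizing j with
  | nil => exact ⟨0, by simp [mi]⟩
  | cons q t ih =>
    rcases q with ⟨v, b⟩
    cases b
    · cases j with
      | zero => exact ⟨0, by simp [mi]⟩
      | succ j =>
        obtain ⟨k, hk⟩ := ih j
        refine ⟨k + 1, ?_⟩
        simp only [mi, List.take_succ_cons, hk]
    · obtain ⟨k, hk⟩ := ih j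
      refine ⟨k + 1, ?_⟩
      simp only [mi, List.take_succ_cons]
      exact hk

lemma pl_mi_perm (T : List (Eu d × Bool)) : (pl T ++ mi T).Perm (T.map Prod.fst) := by
  induction T with
  | nil => simp [pl, mi]
  | cons q t ih =>
    rcases q with ⟨v, b⟩
    cases b
    · simp only [pl, mi, List.map_cons]
      exact List.perm_middle.trans (ih.cons v)
    · simp only [pl, mi, List.map_cons, List.cons_append]
      exact ih.cons v

/-- Chobanyan's rearrangement -/
lemma chob (T : List (Eu d × Bool)) {A B : ℝ} (h0 : (T.map Prod.fst).sum = 0)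
    (hA : ∀ k, ‖((T.take k).map Prod.fst).sum‖ ≤ A) (hB : ∀ k, ‖((T.take k).map (sv id)).sum‖ ≤ B)
    (k : ℕ) : ‖((pl T ++ (mi T).reverse).take k).sum‖ ≤ (A + B) / 2 := by
  have half : ∀ a b p : Eu d, a + b = (2:ℝ) • p → ‖a‖ ≤ A → ‖b‖ ≤ B → ‖p‖ ≤ (A + B) / 2 := by
    intro a b p h ha hb
    have h1 : ‖(2:ℝ) • p‖ ≤ A + B := by
      rw [← h]
      exact (norm_add_le _ _).trans (add_le_add ha hb)
    rw [norm_smul] at h1
    simp only [Real.norm_eq_abs, abs_two] at h1
    linarith
  rcases le_or_gt k (pl T).length with hk | hk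
  · rw [List.take_append_of_le_length hk]
    obtain ⟨i, hi⟩ := pl_take T k
    rw [hi]
    set X := T.take i
    refine half _ _ _ ?_ (hA i) (hB i)
    rw [← pl_add_mi X, ← pl_sub_mi X, two_smul]
    abel
  · have e1 : (pl T ++ (mi T).reverse).take k
        = pl T ++ (mi T).reverse.take (k - (pl T).length) := by
      rw [List.take_append, List.take_of_length_le hk.le]
    rw [e1, List.sum_append, List.take_reverse, List.sum_reverse]
    set j := (mi T).length - (k - (pl T).length)
    have e2 : (pl T).sum + ((mi T).drop j).sum = -((mi T).take j).sum := by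
      have e3 := List.sum_take_add_sum_drop (mi T) j
      have e4 := pl_add_mi T
      rw [h0, ← e3] at e4
      rw [eq_neg_iff_add_eq_zero, ← e4]
      abel
    rw [e2]
    obtain ⟨i, hi⟩ := mi_take T j
    rw [hi, norm_neg]
    set X := T.take i
    refine half _ (-(X.map (sv id)).sum) _ ?_ (hA i) (by rw [norm_neg]; exact hB i)
    rw [← pl_add_mi X, ← pl_sub_mi X, two_smul]
    abel

lemma perm_chob (T : List (Eu d × Bool)) : (pl T ++ (mi T).reverse).Perm (T.map Prod.fst) :=
  ((List.reverse_perm (mi T)).append_left (pl T)).trans (pl_mi_perm T)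

/-- **Chobanyan transfer**: the signed bound yields the rearrangement bound. -/
theorem order_bound (N : ℕ) :
    Vale.Agent.Lib.P262.OrderBound d N (Rad (d + 1) N / r0) := by
  classical
  intro l hlN hl1 hl0
  set B := Rad (d + 1) N / r0 with hB
  have hne : l.permutations.toFinset.Nonempty := ⟨l, by simp⟩
  let Ar : List (Eu d) → ℝ := fun l' =>
    (Finset.range (l.length + 1)).sup' (by simp) fun k => ‖(l'.take k).sum‖
  have hAr : ∀ l' : List (Eu d), l'.Perm l → ∀ k, ‖(l'.take k).sum‖ ≤ Ar l' := by
    intro l' hl' k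
    rcases le_or_gt k l.length with hk | hk
    · exact Finset.le_sup' (fun k => ‖(l'.take k).sum‖) (Finset.mem_range_succ_iff.2 hk)
    · have h1 : l'.take k = l'.take l.length := by
        rw [List.take_of_length_le (by rw [hl'.length_eq]; exact hk.le),
          List.take_of_length_le (by rw [hl'.length_eq])]
      rw [h1]
      exact Finset.le_sup' (fun k => ‖(l'.take k).sum‖) (Finset.mem_range_succ_iff.2 le_rfl)
  obtain ⟨l₀, hl₀, hmin⟩ := Finset.exists_min_image _ Ar hne
  have hl₀p : l₀.Perm l := by simpa using hl₀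
  refine ⟨l₀, hl₀p, ?_⟩
  -- signs for `l₀`
  obtain ⟨T, hT1, hT2⟩ := signed_bound (d := d) N l₀ (by rw [hl₀p.length_eq]; exact hlN)
    (fun v hv => hl1 v (hl₀p.subset hv))
  have hsum : (T.map Prod.fst).sum = 0 := by
    rw [hT1, hl₀p.sum_eq, hl0]
  have hA : ∀ k, ‖((T.take k).map Prod.fst).sum‖ ≤ Ar l₀ := by
    intro k
    rw [List.map_take, hT1]
    exact hAr l₀ hl₀p k
  have hnew := chob T hsum hA hT2
  set l₁ := pl T ++ (mi T).reverse with hl₁
  have hl₁p : l₁.Perm l := by
    have := perm_chob T
    rw [hT1] at this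
    exact this.trans hl₀p
  have hle : Ar l₀ ≤ Ar l₁ := hmin l₁ (by simpa using hl₁p)
  have hle2 : Ar l₁ ≤ (Ar l₀ + B) / 2 := by
    apply Finset.sup'_le
    intro k _
    exact hnew k
  have hfin : Ar l₀ ≤ B := by linarith
  intro k
  exact (hAr l₀ hl₀p k).trans hfin

end

end Vale.Agent.Lib.P262B
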