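import Vale.Agent.Lib.P262B.Gauss1

open Real Set MeasureTheory Filter Topology ProbabilityTheory

namespace Vale.Agent.Lib.P262B

lemma Phi_zero : Phi 0 = 1 / 2 := by
  have := Phi_neg 0
  simp only [neg_zero] at this
  linarith

/-- inverse of the Gaussian distribution function -/
noncomputable def Psi : ℝ → ℝ := Function.invFun Phi

lemma Psi_Phi (x : ℝ) : Psi (Phi x) = x :=
  Function.leftInverse_invFun Phi_strictMono.injective x

lemma exists_Phi_eq {w : ℝ} (h0 : 0 < w) (h1 : w < 1) : ∃ x, Phi x = w := by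
  obtain ⟨a, ha⟩ := (tendsto_Phi_atBot.eventually (gt_mem_nhds h0)).exists
  obtain ⟨b, hb⟩ := (tendsto_Phi_atTop.eventually (lt_mem_nhds h1)).exists
  exact mem_range_of_exists_le_of_exists_ge continuous_Phi ⟨a, ha.le⟩ ⟨b, hb.le⟩

lemma Phi_Psi {w : ℝ} (h0 : 0 < w) (h1 : w < 1) : Phi (Psi w) = w :=
  Function.invFun_eq (exists_Phi_eq h0 h1)

lemma Psi_strictMonoOn : StrictMonoOn Psi (Ioo 0 1) := by
  intro u hu v hv huv
  by_contra hc
  have h1 := Phi_strictMono.monotone (not_lt.1 hc)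
  rw [Phi_Psi hu.1 hu.2, Phi_Psi hv.1 hv.2] at h1
  linarith

lemma hasDerivAt_Psi {w : ℝ} (h0 : 0 < w) (h1 : w < 1) : HasDerivAt Psi (phi (Psi w))⁻¹ w := by
  have hcont : ContinuousAt Psi w := by
    apply Psi_strictMonoOn.continuousAt_of_image_mem_nhds (Ioo_mem_nhds h0 h1)
    have : Psi '' Ioo 0 1 = univ := by
      apply eq_univ_of_forall
      intro x
      exact ⟨Phi x, ⟨Phi_pos x, Phi_lt_one x⟩, Psi_Phi x⟩
    rw [this]
    exact univ_mem
  apply HasDerivAt.of_local_left_inverse hcont (hasDerivAt_Phi _) (phi_pos _).ne'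
  filter_upwards [Ioo_mem_nhds h0 h1] with y hy
  exact Phi_Psi hy.1 hy.2

/-- the three term inequality -/
lemma ehr_E {s a b : ℝ} (h : Phi s = Phi b - Phi a) :
    0 ≤ -a * b * phi s + s * a * phi b - s * b * phi a := by
  have hN := Phi_neg
  have hR : ∀ x, Rt x = 1 - Phi x := Rt_eq
  have key : ∀ {x y z : ℝ}, 0 < x → 0 < y → 0 < z → Rt x = Rt y + Rt z →
      0 ≤ y * z * phi x - x * z * phi y - x * y * phi z := by
    intro x y z hx hy hz hxyz
    have h1 := phi_div_add_le hx hy hz hxyz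
    have hp : 0 < x * y * z := by positivity
    have h2 : x * y * z * (phi y / y + phi z / z) ≤ x * y * z * (phi x / x) :=
      mul_le_mul_of_nonneg_left h1 hp.le
    have e1 : x * y * z * (phi y / y + phi z / z) = x * z * phi y + x * y * phi z := by
      field_simp
    have e2 : x * y * z * (phi x / x) = y * z * phi x := by
      field_simp
    rw [e1, e2] at h2
    linarith
  have half : ∀ {u : ℝ}, Phi u < 1 / 2 → u < 0 := by
    intro u hu
    rw [← Phi_zero] at hu
    exact Phi_strictMono.lt_iff_lt.1 hu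
  have half' : ∀ {u : ℝ}, 0 < u → 1 / 2 < Phi u := by
    intro u hu
    rw [← Phi_zero]
    exact Phi_strictMono hu
  have pa := Phi_pos a
  have pb := Phi_pos (-b)
  have ps := Phi_pos s
  have hb : Phi b = 1 - Phi (-b) := by rw [Phi_neg]; ring
  by_cases hs : 0 < s
  · have h1 := half' hs
    have ha' : a < 0 := half (by linarith)
    have hb' : -b < 0 := half (by linarith)
    have := key (x := s) (y := -a) (z := b) hs (by linarith) (by linarith) (by
      rw [hR, hR, hR, Phi_neg a]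
      linarith)
    rw [phi_neg] at this
    nlinarith
  by_cases ha : 0 < a
  · have h1 := half' ha
    have hs' : s < 0 := half (by linarith)
    have hb' : -b < 0 := half (by linarith)
    have := key (x := a) (y := -s) (z := b) ha (by linarith) (by linarith) (by
      rw [hR, hR, hR, Phi_neg s]
      linarith)
    rw [phi_neg] at this
    nlinarith
  by_cases hb0 : b < 0
  · have h1 := half' (show 0 < -b by linarith)
    have hs' : s < 0 := half (by linarith)
    have ha' : a < 0 := half (by linarith)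
    have := key (x := -b) (y := -s) (z := -a) (by linarith) (by linarith) (by linarith) (by
      rw [hR, hR, hR, Phi_neg s, Phi_neg a, Phi_neg b]
      linarith)
    rw [phi_neg, phi_neg, phi_neg] at this
    nlinarith
  · have hs' : s ≤ 0 := not_lt.1 hs
    have ha' : a ≤ 0 := not_lt.1 ha
    have hb' : 0 ≤ b := not_lt.1 hb0
    have t1 : 0 ≤ -a * b * phi s := mul_nonneg (mul_nonneg (by linarith) hb') (phi_pos s).le
    have t2 : 0 ≤ s * a * phi b := mul_nonneg (mul_nonneg_of_nonpos_of_nonpos hs' ha') (phi_pos b).le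
    have t3 : 0 ≤ -s * b * phi a := mul_nonneg (mul_nonneg (by linarith) hb') (phi_pos a).le
    nlinarith

/-- the sign of the second derivative -/
lemma ehr_key {s a b α β : ℝ} (hab : a < b) (h : Phi s = Phi b - Phi a) :
    (-β ^ 2 * b * phi b + α ^ 2 * a * phi a) * phi s + s * (β * phi b - α * phi a) ^ 2 ≤ 0 := by
  have hs1 : s < b := by
    apply Phi_strictMono.lt_iff_lt.1
    rw [h]; linarith [Phi_pos a]
  have hs2 : s < -a := by
    apply Phi_strictMono.lt_iff_lt.1
    rw [h, Phi_neg]; linarith [Phi_lt_one b]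
  have hB := mul_phi_lt hs1
  have hA := mul_phi_lt hs2
  rw [phi_neg] at hA
  set φs := phi s
  set φa := phi a
  set φb := phi b
  have pa : 0 < φa := phi_pos a
  have pb : 0 < φb := phi_pos b
  have ps : 0 < φs := phi_pos s
  have hE := ehr_E h
  -- A = -(a φs + s φa) ≥ 0, B = b φs - s φb > 0
  set A := -(a * φs + s * φa) with hAdef
  set B := b * φs - s * φb with hBdef
  have A0 : 0 < A := by rw [hAdef]; linarith
  have B0 : 0 < B := by rw [hBdef]; linarith
  have hAB : s ^ 2 * φa * φb ≤ A * B := by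
    have : A * B - s ^ 2 * φa * φb = φs * (-a * b * φs + s * a * φb - s * b * φa) := by
      rw [hAdef, hBdef]; ring
    nlinarith [mul_nonneg ps.le hE]
  set P := φb * B
  set R := φa * A
  set Q := s * φa * φb
  have P0 : 0 < P := by positivity
  have R0 : 0 < R := by positivity
  have hPR : Q ^ 2 ≤ P * R := by
    have : P * R - Q ^ 2 = φa * φb * (A * B - s ^ 2 * φa * φb) := by
      simp only [P, R, Q]; ring
    nlinarith [mul_nonneg (mul_pos pa pb).le (sub_nonneg.2 hAB)]
  have hq : 0 ≤ P * β ^ 2 + 2 * Q * (α * β) + R * α ^ 2 := by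
    have h1 : 0 ≤ P * (P * β ^ 2 + 2 * Q * (α * β) + R * α ^ 2) := by
      have : P * (P * β ^ 2 + 2 * Q * (α * β) + R * α ^ 2)
          = (P * β + Q * α) ^ 2 + (P * R - Q ^ 2) * α ^ 2 := by ring
      rw [this]
      have := mul_nonneg (sub_nonneg.2 hPR) (sq_nonneg α)
      positivity
    exact nonneg_of_mul_nonneg_right h1 P0
  have e : (-β ^ 2 * b * φb + α ^ 2 * a * φa) * φs + s * (β * φb - α * φa) ^ 2
      = -(P * β ^ 2 + 2 * Q * (α * β) + R * α ^ 2) := by
    simp only [P, R, Q]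
    rw [hAdef, hBdef]
    ring
  rw [e]
  linarith

/-- concavity along a segment of intervals -/
lemma ehr_concave (a₁ b₁ a₂ b₂ : ℝ) (h₁ : a₁ < b₁) (h₂ : a₂ < b₂) :
    ConcaveOn ℝ (Icc (0:ℝ) 1)
      (fun t => Psi (Phi (b₁ + t * (b₂ - b₁)) - Phi (a₁ + t * (a₂ - a₁)))) := by
  set α := a₂ - a₁ with hα
  set β := b₂ - b₁ with hβ
  let a : ℝ → ℝ := fun t => a₁ + t * α
  let b : ℝ → ℝ := fun t => b₁ + t * β
  let F : ℝ → ℝ := fun t => Phi (b t) - Phi (a t)
  let s : ℝ → ℝ := fun t => Psi (F t)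
  have hlt : ∀ t ∈ Icc (0:ℝ) 1, a t < b t := by
    intro t ht
    have e : b t - a t = (1 - t) * (b₁ - a₁) + t * (b₂ - a₂) := by
      simp only [a, b, hα, hβ]; ring
    have hp1 : 0 < b₁ - a₁ := by linarith
    have hp2 : 0 < b₂ - a₂ := by linarith
    have : 0 < (1 - t) * (b₁ - a₁) + t * (b₂ - a₂) := by
      rcases lt_or_ge t 1 with h | h
      · have := mul_pos (sub_pos.2 h) hp1
        have := mul_nonneg ht.1 hp2.le
        linarith
      · have ht1 : t = 1 := le_antisymm ht.2 h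
        subst ht1
        simpa using hp2
    linarith
  have hF0 : ∀ t ∈ Icc (0:ℝ) 1, 0 < F t := fun t ht => by
    simp only [F]
    linarith [Phi_strictMono (hlt t ht)]
  have hF1 : ∀ t ∈ Icc (0:ℝ) 1, F t < 1 := fun t _ => by
    simp only [F]
    linarith [Phi_lt_one (b t), Phi_pos (a t)]
  have had : ∀ t, HasDerivAt a α t := fun t => by
    have := ((hasDerivAt_id t).mul_const α).const_add a₁
    simpa [a] using this
  have hbd : ∀ t, HasDerivAt b β t := fun t => by
    have := ((hasDerivAt_id t).mul_const β).const_add b₁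
    simpa [b] using this
  let F' : ℝ → ℝ := fun t => β * phi (b t) - α * phi (a t)
  let F'' : ℝ → ℝ := fun t => -β ^ 2 * b t * phi (b t) + α ^ 2 * a t * phi (a t)
  have hFd : ∀ t, HasDerivAt F (F' t) t := fun t => by
    have h1 := (hasDerivAt_Phi (b t)).comp t (hbd t)
    have h2 := (hasDerivAt_Phi (a t)).comp t (had t)
    refine (h1.sub h2).congr_deriv ?_
    simp only [F']
    ring
  have hF'd : ∀ t, HasDerivAt F' (F'' t) t := fun t => by
    have h1 := ((hasDerivAt_phi (b t)).comp t (hbd t)).const_mul β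
    have h2 := ((hasDerivAt_phi (a t)).comp t (had t)).const_mul α
    refine (h1.sub h2).congr_deriv ?_
    simp only [F'']
    ring
  have hsd : ∀ t ∈ Icc (0:ℝ) 1, HasDerivAt s (F' t / phi (s t)) t := fun t ht => by
    have := (hasDerivAt_Psi (hF0 t ht) (hF1 t ht)).comp t (hFd t)
    refine this.congr_deriv ?_
    simp only [s]
    field_simp
  let s' : ℝ → ℝ := fun t => F' t / phi (s t)
  let s'' : ℝ → ℝ := fun t => (F'' t * phi (s t) + s t * F' t ^ 2) / phi (s t) ^ 2
  have hphis : ∀ t ∈ Icc (0:ℝ) 1, HasDerivAt (fun t => phi (s t)) (-(s t) * phi (s t) * s' t) t :=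
    fun t ht => (hasDerivAt_phi (s t)).comp t (hsd t ht)
  have hs'd : ∀ t ∈ Icc (0:ℝ) 1, HasDerivAt s' (s'' t) t := fun t ht => by
    have hne : phi (s t) ≠ 0 := (phi_pos _).ne'
    have := (hF'd t).div (hphis t ht) hne
    refine this.congr_deriv ?_
    simp only [s'', s']
    field_simp
    ring
  have hIoo : interior (Icc (0:ℝ) 1) = Ioo 0 1 := interior_Icc
  refine concaveOn_of_hasDerivWithinAt2_nonpos (f := s) (f' := s') (f'' := s'')
    (convex_Icc 0 1) ?_ ?_ ?_ ?_
  · exact fun t ht => (hsd t ht).continuousAt.continuousWithinAt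
  · intro t ht
    rw [hIoo] at ht
    exact (hsd t (Ioo_subset_Icc_self ht)).hasDerivWithinAt
  · intro t ht
    rw [hIoo] at ht
    exact (hs'd t (Ioo_subset_Icc_self ht)).hasDerivWithinAt
  · intro t ht
    rw [hIoo] at ht
    have ht' := Ioo_subset_Icc_self ht
    have hΦ : Phi (s t) = Phi (b t) - Phi (a t) := Phi_Psi (hF0 t ht') (hF1 t ht')
    have := ehr_key (α := α) (β := β) (hlt t ht') hΦ
    apply div_nonpos_of_nonpos_of_nonneg this (by positivity)

/-- **One dimensional Ehrhard inequality for intervals** -/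
theorem ehrhard_mid {a₁ b₁ a₂ b₂ v₁ v₂ : ℝ} (h₁ : Rt v₁ ≤ Phi b₁ - Phi a₁)
    (h₂ : Rt v₂ ≤ Phi b₂ - Phi a₂) :
    Rt ((v₁ + v₂) / 2) ≤ Phi ((b₁ + b₂) / 2) - Phi ((a₁ + a₂) / 2) := by
  have lt_of : ∀ {a b v : ℝ}, Rt v ≤ Phi b - Phi a → a < b := by
    intro a b v h
    apply Phi_strictMono.lt_iff_lt.1
    linarith [Rt_pos v]
  have h1 := lt_of h₁
  have h2 := lt_of h₂
  have conc := ehr_concave a₁ b₁ a₂ b₂ h1 h2
  have hm := conc.2 (left_mem_Icc.2 (zero_le_one)) (right_mem_Icc.2 (zero_le_one))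
    (show (0:ℝ) ≤ 1 / 2 by norm_num) (show (0:ℝ) ≤ 1 / 2 by norm_num) (by norm_num)
  simp only [smul_eq_mul, zero_mul, add_zero, mul_one] at hm
  have e1 : b₁ + (0 * (1 / 2) + 1 / 2 * 1) * (b₂ - b₁) = (b₁ + b₂) / 2 := by ring
  have e2 : a₁ + (0 * (1 / 2) + 1 / 2 * 1) * (a₂ - a₁) = (a₁ + a₂) / 2 := by ring
  have sb : b₁ + (b₂ - b₁) = b₂ := by ring
  have sa : a₁ + (a₂ - a₁) = a₂ := by ring
  norm_num at hm
  have e3 : b₁ + 1 / 2 * (b₂ - b₁) = (b₁ + b₂) / 2 := by ring
  have e4 : a₁ + 1 / 2 * (a₂ - a₁) = (a₁ + a₂) / 2 := by ring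
  rw [e3, e4] at hm
  have mid0 : 0 < Phi ((b₁ + b₂) / 2) - Phi ((a₁ + a₂) / 2) := by
    have : Phi ((a₁ + a₂) / 2) < Phi ((b₁ + b₂) / 2) := Phi_strictMono (by linarith)
    linarith
  have mid1 : Phi ((b₁ + b₂) / 2) - Phi ((a₁ + a₂) / 2) < 1 := by
    linarith [Phi_lt_one ((b₁ + b₂) / 2), Phi_pos ((a₁ + a₂) / 2)]
  have l1 : -v₁ ≤ Psi (Phi b₁ - Phi a₁) := by
    have p0 : 0 < Phi b₁ - Phi a₁ := by linarith [Rt_pos v₁]
    have p1 : Phi b₁ - Phi a₁ < 1 := by linarith [Phi_lt_one b₁, Phi_pos a₁]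
    have := Phi_Psi p0 p1
    apply Phi_strictMono.le_iff_le.1
    rw [this]
    exact h₁
  have l2 : -v₂ ≤ Psi (Phi b₂ - Phi a₂) := by
    have p0 : 0 < Phi b₂ - Phi a₂ := by linarith [Rt_pos v₂]
    have p1 : Phi b₂ - Phi a₂ < 1 := by linarith [Phi_lt_one b₂, Phi_pos a₂]
    have := Phi_Psi p0 p1
    apply Phi_strictMono.le_iff_le.1
    rw [this]
    exact h₂
  have final : -((v₁ + v₂) / 2) ≤ Psi (Phi ((b₁ + b₂) / 2) - Phi ((a₁ + a₂) / 2)) := by
    linarith
  have := Phi_strictMono.monotone final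
  rw [Phi_Psi mid0 mid1] at this
  exact this

end Vale.Agent.Lib.P262B
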