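import Vale.Agent.Lib.P262B.Chob
import Vale.Agent.Lib.P262.Final

open Real

namespace Vale.Agent.Lib.P262B

/-- Banaszczyk's bound, with an explicit universal constant (not assumed: proved here). -/
theorem banaszczyk : Vale.Agent.Lib.P262.BanaszczykBound (4 / r0) := by
  intro d N hd hN
  have hr := r0_pos
  have hd1 : (1:ℝ) ≤ d := by exact_mod_cast hd
  have hN1 : (1:ℝ) ≤ N := by exact_mod_cast hN
  have hlogN : 0 ≤ log (N:ℝ) := Real.log_nonneg hN1
  refine (order_bound (d := d) N).mono le_rfl ?_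
  -- numerical comparison
  have h1 : Rad (d + 1) N ≤ 4 * (√(d:ℝ) + √(log (N:ℝ))) := by
    unfold Rad
    have h2 : √(((d + 1 : ℕ):ℝ) + log (2 * (N:ℝ) + 2)) ≤ 2 * (√(d:ℝ) + √(log (N:ℝ))) := by
      apply Real.sqrt_le_iff.2
      refine ⟨by positivity, ?_⟩
      have e : (2 * (√(d:ℝ) + √(log (N:ℝ)))) ^ 2
          = 4 * (d:ℝ) + 4 * log (N:ℝ) + 8 * (√(d:ℝ) * √(log (N:ℝ))) := by
        rw [mul_pow, add_pow_two, Real.sq_sqrt (by positivity), Real.sq_sqrt hlogN]
        ring
      rw [e]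
      have h3 : log (2 * (N:ℝ) + 2) ≤ 2 + log (N:ℝ) := by
        have h4 : 2 * (N:ℝ) + 2 ≤ 4 * N := by linarith
        have h5 : log (2 * (N:ℝ) + 2) ≤ log (4 * N) :=
          Real.log_le_log (by positivity) h4
        have h6 : log (4 * (N:ℝ)) = log 4 + log N := Real.log_mul (by norm_num) (by positivity)
        have h7 : log 4 ≤ 2 := by
          have := Real.log_le_sub_one_of_pos (x := 4 / exp 1) (by positivity)
          rw [Real.log_div (by norm_num) (exp_pos _).ne', Real.log_exp] at this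
          have h8 : 4 / exp 1 ≤ 2 := by
            rw [div_le_iff₀ (exp_pos _)]
            have := Real.add_one_le_exp (1:ℝ)
            linarith
          linarith
        linarith
      have h9 : 0 ≤ √(d:ℝ) * √(log (N:ℝ)) := by positivity
      push_cast
      linarith
    linarith
  have e : 4 / r0 * (√(d:ℝ) + √(log (N:ℝ))) = 4 * (√(d:ℝ) + √(log (N:ℝ))) / r0 := by ring
  rw [e]
  exact div_le_div_of_nonneg_right h1 hr.le

/-- **Unconditional** bound `S_2(d) = O(√(d log d))`. -/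
theorem steinitz_unconditional :
    ∃ C : ℝ, 0 < C ∧ ∀ d : ℕ, 1 ≤ d → ∀ l : List (EuclideanSpace ℝ (Fin d)),
      (∀ v ∈ l, ‖v‖ ≤ 1) → l.sum = 0 →
      ∃ l' : List (EuclideanSpace ℝ (Fin d)), l'.Perm l ∧
        ∀ k : ℕ, ‖(l'.take k).sum‖ ≤ C * √(((d:ℝ) + 1) * log ((d:ℝ) + 2)) := by
  have hr := r0_pos
  have hC : 0 ≤ 4 / r0 := by positivity
  refine ⟨85 * (1 + 4 / r0), by positivity, ?_⟩
  intro d hd l hl1 hl0
  exact Vale.Agent.Lib.P262.steinitz_sqrt_log hC banaszczyk hd l hl1 hl0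

end Vale.Agent.Lib.P262B
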