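import Mathlib

open Real Set MeasureTheory Filter Topology ProbabilityTheory
open scoped ENNReal NNReal

namespace Vale.Agent.Lib.P262B

/-- standard Gaussian density -/
noncomputable def phi (x : ℝ) : ℝ := gaussianPDFReal 0 1 x

lemma phi_eq (x : ℝ) : phi x = (√(2 * π))⁻¹ * exp (-x ^ 2 / 2) := by
  simp [phi, gaussianPDFReal]

lemma phi_pos (x : ℝ) : 0 < phi x := gaussianPDFReal_pos 0 1 x one_ne_zero

lemma continuous_phi : Continuous phi := by
  have : phi = fun x => (√(2 * π))⁻¹ * exp (-x ^ 2 / 2) := funext phi_eq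
  rw [this]
  fun_prop

lemma hasDerivAt_phi (x : ℝ) : HasDerivAt phi (-x * phi x) x := by
  have h : phi = fun x => (√(2 * π))⁻¹ * exp (-x ^ 2 / 2) := funext phi_eq
  have h1 : HasDerivAt (fun x : ℝ => -x ^ 2 / 2) (-x) x := by
    have := ((hasDerivAt_pow 2 x).neg).div_const 2
    refine this.congr_deriv ?_
    ring
  have h2 := (h1.exp).const_mul (√(2 * π))⁻¹
  rw [h]
  refine h2.congr_deriv ?_
  ring

lemma phi_neg (x : ℝ) : phi (-x) = phi x := by
  rw [phi_eq, phi_eq]
  simp

lemma phi_le_of_sq_le {x y : ℝ} (h : x ^ 2 ≤ y ^ 2) : phi y ≤ phi x := by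
  rw [phi_eq, phi_eq]
  apply mul_le_mul_of_nonneg_left _ (by positivity)
  apply exp_le_exp.2
  linarith

lemma phi_midpoint (x y : ℝ) : phi x * phi y ≤ phi ((x + y) / 2) ^ 2 := by
  rw [phi_eq, phi_eq, phi_eq, mul_pow, ← exp_nat_mul]
  have h : (√(2 * π))⁻¹ * exp (-x ^ 2 / 2) * ((√(2 * π))⁻¹ * exp (-y ^ 2 / 2))
      = ((√(2 * π))⁻¹) ^ 2 * exp (-x ^ 2 / 2 + -y ^ 2 / 2) := by
    rw [exp_add]; ring
  rw [h]
  apply mul_le_mul_of_nonneg_left _ (by positivity)
  apply exp_le_exp.2
  push_cast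
  nlinarith [sq_nonneg (x - y)]

lemma phi_zero_le : phi 0 ≤ 1 / 2 := by
  rw [phi_eq]
  have h : (2:ℝ) ≤ √(2 * π) := by
    apply Real.le_sqrt_of_sq_le
    nlinarith [Real.pi_gt_three]
  have h2 : (√(2 * π))⁻¹ ≤ 1 / 2 := by
    rw [one_div]
    exact inv_anti₀ (by norm_num) h
  simpa using h2

lemma integrable_phi : Integrable phi := integrable_gaussianPDFReal 0 1

lemma integral_phi : ∫ x, phi x = 1 := integral_gaussianPDFReal_eq_one 0 one_ne_zero

/-- Gaussian distribution function -/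
noncomputable def Phi (x : ℝ) : ℝ := ∫ t in Iic x, phi t

lemma Phi_sub (a b : ℝ) : Phi b - Phi a = ∫ t in a..b, phi t :=
  intervalIntegral.integral_Iic_sub_Iic integrable_phi.integrableOn integrable_phi.integrableOn

lemma hasDerivAt_Phi (x : ℝ) : HasDerivAt Phi (phi x) x := by
  have h : Phi = fun y => Phi 0 + ∫ t in (0:ℝ)..y, phi t := by
    funext y
    rw [← Phi_sub]; ring
  rw [h]
  exact ((continuous_phi.integral_hasStrictDerivAt 0 x).hasDerivAt).const_add _

lemma continuous_Phi : Continuous Phi :=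
  continuous_iff_continuousAt.2 fun x => (hasDerivAt_Phi x).continuousAt

lemma Phi_strictMono : StrictMono Phi :=
  strictMono_of_deriv_pos fun x => by
    rw [(hasDerivAt_Phi x).deriv]
    exact phi_pos x

lemma Phi_eq_measure (x : ℝ) : ENNReal.ofReal (Phi x) = gaussianReal 0 1 (Iic x) := by
  rw [gaussianReal_apply_eq_integral 0 one_ne_zero]
  rfl

lemma Phi_nonneg (x : ℝ) : 0 ≤ Phi x :=
  setIntegral_nonneg measurableSet_Iic fun t _ => (phi_pos t).le

lemma Phi_add_compl (x : ℝ) : Phi x + ∫ t in Ioi x, phi t = 1 := by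
  have h := setIntegral_union (Iic_disjoint_Ioi (le_refl x)) measurableSet_Ioi
    (integrable_phi.integrableOn (s := Iic x)) (integrable_phi.integrableOn (s := Ioi x))
  rw [Iic_union_Ioi, setIntegral_univ, integral_phi] at h
  rw [Phi, ← h]

lemma Phi_neg (x : ℝ) : Phi (-x) = 1 - Phi x := by
  have h1 := Phi_add_compl x
  have h2 : ∫ t in Ioi x, phi t = Phi (-x) := by
    rw [Phi]
    have := integral_comp_neg_Iic (-x) phi
    simp only [neg_neg, phi_neg] at this
    exact this.symm
  linarith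

lemma Phi_eq_cdf (x : ℝ) : Phi x = cdf (gaussianReal 0 1) x := by
  rw [cdf_eq_real, Measure.real, ← Phi_eq_measure, ENNReal.toReal_ofReal (Phi_nonneg x)]

lemma tendsto_Phi_atTop : Tendsto Phi atTop (𝓝 1) := by
  have : Phi = cdf (gaussianReal 0 1) := funext Phi_eq_cdf
  rw [this]
  exact tendsto_cdf_atTop _

lemma tendsto_Phi_atBot : Tendsto Phi atBot (𝓝 0) := by
  have : Phi = cdf (gaussianReal 0 1) := funext Phi_eq_cdf
  rw [this]
  exact tendsto_cdf_atBot _

lemma Phi_lt_one (x : ℝ) : Phi x < 1 := by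
  have h : Phi (x + 1) ≤ 1 := Phi_strictMono.monotone.ge_of_tendsto tendsto_Phi_atTop _
  exact (Phi_strictMono (by linarith : x < x + 1)).trans_le h

lemma Phi_pos (x : ℝ) : 0 < Phi x :=
  lt_of_le_of_lt (Phi_nonneg (x - 1)) (Phi_strictMono (by linarith))

/-- the Gaussian tail -/
noncomputable def Rt (x : ℝ) : ℝ := Phi (-x)

lemma Rt_eq (x : ℝ) : Rt x = 1 - Phi x := Phi_neg x

lemma Rt_pos (x : ℝ) : 0 < Rt x := Phi_pos _

lemma hasDerivAt_Rt (x : ℝ) : HasDerivAt Rt (-phi x) x := by
  have h : Rt = fun y => 1 - Phi y := funext Rt_eq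
  rw [h]
  exact (hasDerivAt_Phi x).const_sub 1

lemma Rt_strictAnti : StrictAnti Rt := fun x y h => by
  rw [Rt, Rt]
  exact Phi_strictMono (by linarith)

lemma tendsto_Rt_atTop : Tendsto Rt atTop (𝓝 0) := by
  have : Rt = fun y => 1 - Phi y := funext Rt_eq
  rw [this]
  simpa using tendsto_Phi_atTop.const_sub 1

lemma tendsto_phi_atTop : Tendsto phi atTop (𝓝 0) := by
  have h : phi = fun x => (√(2 * π))⁻¹ * exp (-x ^ 2 / 2) := funext phi_eq
  have h2 : Tendsto (fun x : ℝ => exp (-x ^ 2 / 2)) atTop (𝓝 0) := by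
    apply tendsto_exp_atBot.comp
    have : Tendsto (fun x : ℝ => x ^ 2 / 2) atTop atTop :=
      (tendsto_pow_atTop (two_ne_zero)).atTop_div_const (by norm_num)
    have h3 := tendsto_neg_atTop_atBot.comp this
    refine h3.congr fun x => ?_
    simp only [Function.comp]
    ring
  rw [h]
  simpa using h2.const_mul (√(2 * π))⁻¹

/-- a function with nonpositive derivative on `[x, ∞)` tending to `0` is nonnegative at `x` -/
lemma nonneg_of_deriv_nonpos {f f' : ℝ → ℝ} {x : ℝ} (hd : ∀ u, x ≤ u → HasDerivAt f (f' u) u)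
    (hn : ∀ u, x ≤ u → f' u ≤ 0) (hl : Tendsto f atTop (𝓝 0)) : 0 ≤ f x := by
  have hanti : AntitoneOn f (Ici x) := by
    apply antitoneOn_of_deriv_nonpos (convex_Ici x)
    · exact fun u hu => (hd u hu).continuousAt.continuousWithinAt
    · intro u hu
      rw [interior_Ici] at hu
      exact (hd u (le_of_lt hu)).differentiableAt.differentiableWithinAt
    · intro u hu
      rw [interior_Ici] at hu
      rw [(hd u (le_of_lt hu)).deriv]
      exact hn u (le_of_lt hu)
  refine le_of_tendsto hl ?_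
  filter_upwards [eventually_ge_atTop x] with u hu
  exact hanti (mem_Ici.2 le_rfl) hu hu

/-- exponential decay of the Gaussian tail -/
lemma Rt_add_le {x δ : ℝ} (hx : 0 ≤ x) (hδ : 0 ≤ δ) : Rt (x + δ) ≤ exp (-(x * δ)) * Rt x := by
  have key : 0 ≤ exp (-(x * δ)) * Rt x - Rt (x + δ) := by
    refine nonneg_of_deriv_nonpos (f := fun u => exp (-(x * δ)) * Rt u - Rt (u + δ))
      (f' := fun u => exp (-(x * δ)) * (-phi u) - (-phi (u + δ))) ?_ ?_ ?_
    · intro u _
      have h1 := ((hasDerivAt_Rt u).const_mul (exp (-(x * δ))))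
      have h2 : HasDerivAt (fun u => Rt (u + δ)) (-phi (u + δ)) u := by
        have := (hasDerivAt_Rt (u + δ)).comp_add_const u δ
        simpa using this
      exact h1.sub h2
    · intro u hu
      have h : phi (u + δ) ≤ exp (-(x * δ)) * phi u := by
        rw [phi_eq, phi_eq]
        have : (√(2 * π))⁻¹ * exp (-(u + δ) ^ 2 / 2)
            = (√(2 * π))⁻¹ * (exp (-(u * δ) - δ ^ 2 / 2) * exp (-u ^ 2 / 2)) := by
          rw [← exp_add]; congr 2; ring
        rw [this]
        have h3 : exp (-(u * δ) - δ ^ 2 / 2) ≤ exp (-(x * δ)) := by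
          apply exp_le_exp.2
          nlinarith [sq_nonneg δ, mul_le_mul_of_nonneg_right hu hδ]
        have h4 : 0 ≤ (√(2 * π))⁻¹ := by positivity
        have h5 := exp_pos (-u ^ 2 / 2)
        nlinarith [mul_le_mul_of_nonneg_right h3 h5.le, mul_le_mul_of_nonneg_left (mul_le_mul_of_nonneg_right h3 h5.le) h4]
      linarith
    · have h1 := tendsto_Rt_atTop.const_mul (exp (-(x * δ)))
      have h2 : Tendsto (fun u => Rt (u + δ)) atTop (𝓝 0) :=
        tendsto_Rt_atTop.comp (tendsto_atTop_add_const_right _ _ tendsto_id)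
      simpa using h1.sub h2
  linarith

/-- lower bound for the tail: `φ(z)/z ≤ (1 + 1/z²) R(z)` -/
lemma phi_div_le_Rt {z : ℝ} (hz : 0 < z) : phi z / z ≤ (1 + 1 / z ^ 2) * Rt z := by
  have key : 0 ≤ (1 + 1 / z ^ 2) * Rt z - phi z / z := by
    refine nonneg_of_deriv_nonpos (f := fun u => (1 + 1 / z ^ 2) * Rt u - phi u / u)
      (f' := fun u => (1 + 1 / z ^ 2) * (-phi u) - (((-u * phi u) * u - phi u * 1) / u ^ 2)) ?_ ?_ ?_
    · intro u hu
      have hu0 : u ≠ 0 := (lt_of_lt_of_le hz hu).ne'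
      exact ((hasDerivAt_Rt u).const_mul _).sub ((hasDerivAt_phi u).div (hasDerivAt_id u) hu0)
    · intro u hu
      have hu0 : 0 < u := lt_of_lt_of_le hz hu
      have e : (1 + 1 / z ^ 2) * (-phi u) - (((-u * phi u) * u - phi u * 1) / u ^ 2)
          = phi u * (1 / u ^ 2 - 1 / z ^ 2) := by
        field_simp
        ring
      rw [e]
      have h1 : 1 / u ^ 2 ≤ 1 / z ^ 2 := by
        apply one_div_le_one_div_of_le (by positivity)
        exact pow_le_pow_left₀ hz.le hu 2
      nlinarith [phi_pos u]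
    · have h1 := tendsto_Rt_atTop.const_mul (1 + 1 / z ^ 2)
      have h2 : Tendsto (fun u => phi u / u) atTop (𝓝 0) :=
        Tendsto.div_atTop tendsto_phi_atTop tendsto_id
      simpa using h1.sub h2
  linarith

/-- increment of `φ(u)/u` versus the tail -/
lemma phi_div_sub_ge {x y : ℝ} (hx : 0 < x) (hxy : x ≤ y) :
    (1 + 1 / y ^ 2) * (Rt x - Rt y) ≤ phi x / x - phi y / y := by
  have hanti : AntitoneOn (fun u => phi u / u - (1 + 1 / y ^ 2) * Rt u) (Icc x y) := by
    have hd : ∀ u ∈ Icc x y, HasDerivAt (fun u => phi u / u - (1 + 1 / y ^ 2) * Rt u)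
        (((-u * phi u) * u - phi u * 1) / u ^ 2 - (1 + 1 / y ^ 2) * (-phi u)) u := by
      intro u hu
      have hu0 : u ≠ 0 := (lt_of_lt_of_le hx hu.1).ne'
      exact ((hasDerivAt_phi u).div (hasDerivAt_id u) hu0).sub ((hasDerivAt_Rt u).const_mul _)
    apply antitoneOn_of_deriv_nonpos (convex_Icc x y)
    · exact fun u hu => (hd u hu).continuousAt.continuousWithinAt
    · intro u hu
      rw [interior_Icc] at hu
      exact (hd u (Ioo_subset_Icc_self hu)).differentiableAt.differentiableWithinAt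
    · intro u hu
      rw [interior_Icc] at hu
      rw [(hd u (Ioo_subset_Icc_self hu)).deriv]
      have hu0 : 0 < u := hx.trans hu.1
      have e : ((-u * phi u) * u - phi u * 1) / u ^ 2 - (1 + 1 / y ^ 2) * (-phi u)
          = phi u * (1 / y ^ 2 - 1 / u ^ 2) := by
        field_simp
        ring
      rw [e]
      have h1 : 1 / y ^ 2 ≤ 1 / u ^ 2 := by
        apply one_div_le_one_div_of_le (by positivity)
        exact pow_le_pow_left₀ hu0.le hu.2.le 2
      nlinarith [phi_pos u]
  have := hanti (left_mem_Icc.2 hxy) (right_mem_Icc.2 hxy) hxy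
  simp only at this
  linarith

/-- superadditivity of `φ/x` against additive tails -/
lemma phi_div_add_le {x y z : ℝ} (hx : 0 < x) (hy : 0 < y) (hz : 0 < z)
    (h : Rt x = Rt y + Rt z) : phi y / y + phi z / z ≤ phi x / x := by
  wlog hyz : y ≤ z generalizing y z
  · have := this hz hy (by linarith) (le_of_not_ge hyz)
    linarith
  have hxy : x ≤ y := by
    by_contra hc
    have := Rt_strictAnti (not_le.1 hc)
    linarith [Rt_pos z]
  have h1 := phi_div_sub_ge hx hxy
  have h2 := phi_div_le_Rt hz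
  have h3 : 1 / z ^ 2 ≤ 1 / y ^ 2 := by
    apply one_div_le_one_div_of_le (by positivity)
    exact pow_le_pow_left₀ hy.le hyz 2
  have h4 : Rt x - Rt y = Rt z := by linarith
  rw [h4] at h1
  have h5 := Rt_pos z
  nlinarith [mul_le_mul_of_nonneg_right h3 h5.le]

/-- `x φ(y) < y φ(x)` for `x < y` -/
lemma mul_phi_lt {x y : ℝ} (h : x < y) : x * phi y < y * phi x := by
  have px := phi_pos x
  have py := phi_pos y
  rcases le_total 0 x with hx | hx
  · -- 0 ≤ x < y
    have h1 : phi y ≤ phi x := phi_le_of_sq_le (by nlinarith)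
    nlinarith
  · rcases le_total 0 y with hy | hy
    · -- x ≤ 0 ≤ y
      rcases eq_or_lt_of_le hx with h0 | h0
      · have : 0 < y := by linarith
        rw [h0]
        nlinarith [phi_pos 0]
      · nlinarith [mul_pos (neg_pos.2 h0) py, mul_nonneg hy px.le]
    · -- x < y ≤ 0
      have h1 : phi x ≤ phi y := phi_le_of_sq_le (by nlinarith)
      nlinarith

end Vale.Agent.Lib.P262B
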