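import Vale.Agent.Lib.P227.PL
import Vale.Agent.Lib.P262B.Ehr

open MeasureTheory Set ProbabilityTheory
open scoped ENNReal

namespace Vale.Agent.Lib.P262B

/-- product standard Gaussian measure on `Fin n → ℝ` -/
noncomputable def gam (n : ℕ) : Measure (Fin n → ℝ) := Measure.pi fun _ => gaussianReal 0 1

instance (n : ℕ) : IsProbabilityMeasure (gam n) := by
  unfold gam; infer_instance

lemma gaussian_lintegral {F : ℝ → ℝ≥0∞} (hF : Measurable F) :
    ∫⁻ s, F s ∂(gaussianReal 0 1) = ∫⁻ s, F s * ENNReal.ofReal (phi s) := by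
  rw [gaussianReal_of_var_ne_zero 0 one_ne_zero, lintegral_withDensity_eq_lintegral_mul _
    (measurable_gaussianPDF 0 1) hF]
  apply lintegral_congr
  intro s
  simp only [Pi.mul_apply]
  rw [mul_comm]
  rfl

lemma gam_mp (n : ℕ) : MeasurePreserving (MeasurableEquiv.piFinSuccAbove (fun _ : Fin (n + 1) => ℝ) 0).symm
    ((gaussianReal 0 1).prod (gam n)) (gam (n + 1)) :=
  (measurePreserving_piFinSuccAbove (fun _ : Fin (n + 1) => gaussianReal 0 1) 0).symm

lemma measurable_insert (n : ℕ) :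
    Measurable fun q : ℝ × (Fin n → ℝ) => (Fin.insertNth 0 q.1 q.2 : Fin (n + 1) → ℝ) :=
  (gam_mp n).measurable

lemma gam_succ_lintegral {n : ℕ} {p : (Fin (n + 1) → ℝ) → ℝ≥0∞} (hp : Measurable p) :
    ∫⁻ x, p x ∂gam (n + 1)
      = ∫⁻ s, ∫⁻ y, p (Fin.insertNth 0 s y) ∂gam n ∂gaussianReal 0 1 := by
  have h1 := (gam_mp n).lintegral_comp hp
  rw [← h1, lintegral_prod]
  · rfl
  · exact (hp.comp (gam_mp n).measurable).aemeasurable

lemma half_rpow_mul_ofReal_phi (u v : ℝ) :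
    ENNReal.ofReal (phi u) ^ (1 - (1 / 2 : ℝ)) * ENNReal.ofReal (phi v) ^ (1 / 2 : ℝ)
      ≤ ENNReal.ofReal (phi ((1 - (1 / 2 : ℝ)) * u + (1 / 2 : ℝ) * v)) := by
  have e : (1 - (1 / 2 : ℝ)) = 1 / 2 := by norm_num
  rw [e, ENNReal.ofReal_rpow_of_pos (phi_pos u) , ENNReal.ofReal_rpow_of_pos (phi_pos v),
    ← ENNReal.ofReal_mul (by have := phi_pos u; positivity)]
  apply ENNReal.ofReal_le_ofReal
  have hm : (1 / 2 : ℝ) * u + 1 / 2 * v = (u + v) / 2 := by ring
  rw [hm, ← Real.mul_rpow (phi_pos u).le (phi_pos v).le, ← Real.sqrt_eq_rpow]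
  apply Real.sqrt_le_iff.2
  exact ⟨(phi_pos _).le, phi_midpoint u v⟩

/-- Gaussian Prekopa-Leindler inequality with parameter one half. -/
theorem gauss_pl (n : ℕ) {f g h : (Fin n → ℝ) → ℝ≥0∞}
    (hf : Measurable f) (hg : Measurable g) (hh : Measurable h)
    (H : ∀ x y, f x ^ (1 - (1 / 2 : ℝ)) * g y ^ (1 / 2 : ℝ)
      ≤ h ((1 - (1 / 2 : ℝ)) • x + (1 / 2 : ℝ) • y)) :
    (∫⁻ x, f x ∂gam n) ^ (1 - (1 / 2 : ℝ)) * (∫⁻ x, g x ∂gam n) ^ (1 / 2 : ℝ)
      ≤ ∫⁻ x, h x ∂gam n := by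
  induction n with
  | zero =>
    have hv : gam 0 univ = 1 := measure_univ
    have eq : ∀ p : (Fin 0 → ℝ) → ℝ≥0∞, ∫⁻ x, p x ∂gam 0 = p 0 := by
      intro p
      rw [lintegral_unique, hv, mul_one]
      exact congrArg p (Subsingleton.elim _ _)
    rw [eq f, eq g, eq h]
    have := H 0 0
    simpa using this
  | succ d ih =>
    have mps := gam_mp d
    have meas : ∀ {p : (Fin (d + 1) → ℝ) → ℝ≥0∞}, Measurable p →
        Measurable fun s : ℝ => ∫⁻ x : Fin d → ℝ, p (Fin.insertNth 0 s x) ∂gam d := by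
      intro p hp
      exact (hp.comp mps.measurable).lintegral_prod_right'
    have fib : ∀ {p : (Fin (d + 1) → ℝ) → ℝ≥0∞}, Measurable p → ∀ s : ℝ,
        Measurable fun x : Fin d → ℝ => p (Fin.insertNth 0 s x) := by
      intro p hp s
      exact (hp.comp mps.measurable).comp (measurable_const.prodMk measurable_id)
    have hop : Measurable fun s : ℝ => ENNReal.ofReal (phi s) :=
      continuous_phi.measurable.ennreal_ofReal
    rw [gam_succ_lintegral hf, gam_succ_lintegral hg, gam_succ_lintegral hh,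
      gaussian_lintegral (meas hf), gaussian_lintegral (meas hg), gaussian_lintegral (meas hh)]
    refine Vale.Agent.Lib.P227.pl_one ((meas hf).mul hop) ((meas hg).mul hop) ((meas hh).mul hop)
      (by norm_num) (by norm_num) ?_
    intro u v
    have key := ih (fib hf u) (fib hg v) (fib hh ((1 - (1 / 2 : ℝ)) * u + (1 / 2 : ℝ) * v)) (by
      intro x y
      have : (1 - (1 / 2 : ℝ)) • (Fin.insertNth 0 u x : Fin (d + 1) → ℝ)
            + (1 / 2 : ℝ) • (Fin.insertNth 0 v y : Fin (d + 1) → ℝ)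
          = Fin.insertNth 0 ((1 - (1 / 2 : ℝ)) * u + (1 / 2 : ℝ) * v)
              ((1 - (1 / 2 : ℝ)) • x + (1 / 2 : ℝ) • y) := by
        ext i
        refine Fin.cases ?_ (fun j => ?_) i
        · simp
        · simp
      rw [← this]
      exact H _ _)
    have h1t : (0:ℝ) ≤ 1 - 1 / 2 := by norm_num
    have ht : (0:ℝ) ≤ 1 / 2 := by norm_num
    simp only [Pi.mul_apply]
    rw [ENNReal.mul_rpow_of_nonneg _ _ h1t, ENNReal.mul_rpow_of_nonneg _ _ ht]
    calc _ = ((∫⁻ x, f (Fin.insertNth 0 u x) ∂gam d) ^ (1 - (1 / 2 : ℝ))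
              * (∫⁻ x, g (Fin.insertNth 0 v x) ∂gam d) ^ (1 / 2 : ℝ))
            * (ENNReal.ofReal (phi u) ^ (1 - (1 / 2 : ℝ)) * ENNReal.ofReal (phi v) ^ (1 / 2 : ℝ)) := by
            ring
      _ ≤ _ := mul_le_mul' key (half_rpow_mul_ofReal_phi u v)

/-- Gaussian log-concavity for sets at midpoints. -/
theorem gauss_pl_set (n : ℕ) {A B C : Set (Fin n → ℝ)} (hA : MeasurableSet A) (hB : MeasurableSet B)
    (hC : MeasurableSet C)
    (H : ∀ x ∈ A, ∀ y ∈ B, (1 / 2 : ℝ) • x + (1 / 2 : ℝ) • y ∈ C) :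
    (gam n).real A * (gam n).real B ≤ (gam n).real C ^ 2 := by
  have key := gauss_pl n (f := A.indicator 1) (g := B.indicator 1) (h := C.indicator 1)
    (measurable_one.indicator hA) (measurable_one.indicator hB) (measurable_one.indicator hC) (by
      intro x y
      have e : (1 - (1 / 2 : ℝ)) = 1 / 2 := by norm_num
      rw [e]
      by_cases hx : x ∈ A
      · by_cases hy : y ∈ B
        · have := H x hx y hy
          rw [indicator_of_mem hx, indicator_of_mem hy, indicator_of_mem this]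
          simp
        · have h0 : (0:ℝ) < 1 / 2 := by norm_num
          simp [hy, ENNReal.zero_rpow_of_pos h0]
      · have h0 : (0:ℝ) < 1 / 2 := by norm_num
        simp [hx, ENNReal.zero_rpow_of_pos h0])
  rw [lintegral_indicator_one hA, lintegral_indicator_one hB, lintegral_indicator_one hC] at key
  have e : (1 - (1 / 2 : ℝ)) = 1 / 2 := by norm_num
  rw [e] at key
  have key2 := ENNReal.toReal_mono (measure_ne_top _ _) key
  rw [ENNReal.toReal_mul, ← ENNReal.toReal_rpow, ← ENNReal.toReal_rpow] at key2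
  have a0 : 0 ≤ (gam n).real A := measureReal_nonneg
  have b0 : 0 ≤ (gam n).real B := measureReal_nonneg
  have key3 : ((gam n).real A) ^ (1 / 2 : ℝ) * ((gam n).real B) ^ (1 / 2 : ℝ) ≤ (gam n).real C := key2
  rw [← Real.mul_rpow a0 b0, ← Real.sqrt_eq_rpow] at key3
  exact (Real.sqrt_le_iff.1 key3).2

end Vale.Agent.Lib.P262B
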