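import Vale.Agent.Lib.P262B.Ehr

open MeasureTheory Set Filter Topology Real

namespace Vale.Agent.Lib.P262B

/-- increments of a log-concave bounded nondecreasing sequence decay up to a constant -/
lemma seq_lemma {p : ℕ → ℝ} (hmono : Monotone p) (h1 : ∀ i, p i ≤ 1) (h0 : 1 / 4 ≤ p 0)
    (hlc : ∀ i, p i * p (i + 2) ≤ p (i + 1) ^ 2) {i j : ℕ} (hij : i ≤ j) :
    p (j + 1) - p j ≤ 4 * (p (i + 1) - p i) := by
  have pos : ∀ k, 1 / 4 ≤ p k := fun k => h0.trans (hmono (Nat.zero_le k))
  have step : ∀ k, (p (k + 2) - p (k + 1)) * p k ≤ (p (k + 1) - p k) * p (k + 1) := fun k => by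
    nlinarith [hlc k]
  have ind : ∀ j, i ≤ j → (p (j + 1) - p j) * p i ≤ (p (i + 1) - p i) * p j := by
    intro j hj
    induction j, hj using Nat.le_induction with
    | base => exact le_of_eq (by ring)
    | succ j hj ih =>
      have s := step j
      have hpj : 0 < p j := by linarith [pos j]
      have hpi : 0 ≤ p i := by linarith [pos i]
      have hpj1 : 0 ≤ p (j + 1) := by linarith [pos (j + 1)]
      have e1 := mul_le_mul_of_nonneg_right s hpi
      have e2 := mul_le_mul_of_nonneg_right ih hpj1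
      have : ((p (j + 1 + 1) - p (j + 1)) * p i) * p j ≤ ((p (i + 1) - p i) * p (j + 1)) * p j := by
        have e3 : (p (j + 2) - p (j + 1)) * p j * p i = ((p (j + 1 + 1) - p (j + 1)) * p i) * p j := by
          ring_nf
        have e4 : (p (i + 1) - p i) * p j * p (j + 1) = ((p (i + 1) - p i) * p (j + 1)) * p j := by ring
        have e5 : (p (j + 1) - p j) * p (j + 1) * p i = (p (j + 1) - p j) * p i * p (j + 1) := by ring
        linarith
      exact le_of_mul_le_mul_right this hpj
  have key := ind j hij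
  have hMj : 0 ≤ p (j + 1) - p j := sub_nonneg.2 (hmono (Nat.le_succ j))
  have hMi : 0 ≤ p (i + 1) - p i := sub_nonneg.2 (hmono (Nat.le_succ i))
  have a1 : (p (j + 1) - p j) * (1 / 4) ≤ (p (j + 1) - p j) * p i :=
    mul_le_mul_of_nonneg_left (pos i) hMj
  have a2 : (p (i + 1) - p i) * p j ≤ (p (i + 1) - p i) * 1 :=
    mul_le_mul_of_nonneg_left (h1 j) hMi
  linarith

lemma Rt_two_le : Rt 2 ≤ 1 / 4 := by
  have h := Rt_add_le (x := 1) (δ := 1) (by norm_num) (by norm_num)
  have h1 : Rt 1 ≤ 1 / 2 := by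
    have : Rt 0 = 1 / 2 := by rw [Rt_eq, Phi_zero]; norm_num
    rw [← this]
    exact Rt_strictAnti.antitone (by norm_num)
  have h2 : exp (-(1 * 1)) ≤ 1 / 2 := by
    have := Real.add_one_le_exp (1:ℝ)
    rw [show -((1:ℝ) * 1) = -1 by norm_num, Real.exp_neg]
    rw [show (1:ℝ) / 2 = 2⁻¹ by norm_num]
    exact inv_anti₀ (by norm_num) (by linarith)
  have e : (1:ℝ) + 1 = 2 := by norm_num
  rw [e] at h
  have hp := Rt_pos 1
  have : exp (-(1 * 1)) * Rt 1 ≤ 1 / 2 * (1 / 2) :=
    mul_le_mul h2 h1 hp.le (by norm_num)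
  exact h.trans (this.trans (by norm_num))

/-- the shell lemma: comparison of integrals of fibre measures -/
theorem shell {Y : Type*} [MeasurableSpace Y] (ν : Measure Y) [IsProbabilityMeasure ν] {m ms : Y → ℝ}
    (hm : Measurable m) (hms : Measurable ms) (m0 : ∀ y, 0 ≤ m y) (m1 : ∀ y, m y ≤ 1)
    (ms0 : ∀ y, 0 ≤ ms y) (ms1 : ∀ y, ms y ≤ 1)
    {I : ℕ} (hI : 1 ≤ I) (hI' : 16 * phi 0 ≤ I * phi 4)
    (hint : 1 / 2 ≤ ∫ y, m y ∂ν)
    (hlc : ∀ v₁ v₂, ν.real {y | Rt v₁ ≤ m y} * ν.real {y | Rt v₂ ≤ m y}
      ≤ ν.real {y | Rt ((v₁ + v₂) / 2) ≤ m y} ^ 2)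
    (hge : ∀ y, Rt (2 + I) ≤ m y → m y ≤ ms y)
    (hgain : ∀ y, Rt 3 ≤ m y → m y < Rt 2 → m y + Rt (2 + I) / (2 * phi 0) * phi 4 ≤ ms y) :
    ∫ y, m y ∂ν ≤ ∫ y, ms y ∂ν := by
  have hIpos : (0:ℝ) < I := by exact_mod_cast hI
  have hI1 : (1:ℝ) ≤ I := by exact_mod_cast hI
  let A : ℝ → Set Y := fun v => {y | Rt v ≤ m y}
  have hAm : ∀ v, MeasurableSet (A v) := fun v => measurableSet_le measurable_const hm
  have hAsub : ∀ {v w : ℝ}, v ≤ w → A v ⊆ A w := fun {v w} hvw y hy =>
    le_trans (Rt_strictAnti.antitone hvw) hy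
  let g : ℕ → ℝ := fun i => 2 + (i:ℝ) / I
  have hgmono : Monotone g := by
    intro i j hij
    simp only [g]
    have : (i:ℝ) ≤ j := by exact_mod_cast hij
    have := div_le_div_of_nonneg_right this hIpos.le
    linarith
  let p : ℕ → ℝ := fun i => ν.real (A (g i))
  have hpmono : Monotone p := fun i j hij => measureReal_mono (hAsub (hgmono hij))
  have hp1 : ∀ i, p i ≤ 1 := fun i => measureReal_le_one
  have mint : Integrable m ν :=
    (integrable_const (1:ℝ)).mono' hm.aestronglyMeasurable
      (ae_of_all _ fun y => by rw [Real.norm_of_nonneg (m0 y)]; exact m1 y)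
  have msint : Integrable ms ν :=
    (integrable_const (1:ℝ)).mono' hms.aestronglyMeasurable
      (ae_of_all _ fun y => by rw [Real.norm_of_nonneg (ms0 y)]; exact ms1 y)
  have hg0 : g 0 = 2 := by simp [g]
  have hgI : g I = 3 := by
    simp only [g]
    rw [div_self hIpos.ne']
    norm_num
  -- lower bound on `p 0`
  have hp0 : 1 / 4 ≤ p 0 := by
    have h1 : ∫ y, m y ∂ν ≤ ∫ y, ((A 2).indicator (fun _ => (1:ℝ)) y + Rt 2) ∂ν := by
      apply integral_mono mint
      · exact ((integrable_const (1:ℝ)).indicator (hAm 2)).add (integrable_const _)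
      · intro y
        by_cases hy : y ∈ A 2
        · simp only [indicator_of_mem hy]
          have := m1 y
          have := Rt_pos 2
          linarith
        · simp only [indicator_of_notMem hy, zero_add]
          exact (not_le.1 hy).le
    rw [integral_add ((integrable_const (1:ℝ)).indicator (hAm 2)) (integrable_const _),
      integral_indicator_const _ (hAm 2)] at h1
    simp only [integral_const, probReal_univ, smul_eq_mul, one_mul, mul_one] at h1
    have e : p 0 = ν.real (A 2) := by simp only [p]; rw [hg0]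
    rw [e]
    have := Rt_two_le
    linarith
  have hplc : ∀ i, p i * p (i + 2) ≤ p (i + 1) ^ 2 := by
    intro i
    have := hlc (g i) (g (i + 2))
    have e : (g i + g (i + 2)) / 2 = g (i + 1) := by
      simp only [g]
      push_cast
      field_simp
      ring
    rw [e] at this
    exact this
  have hseq : ∀ {i j : ℕ}, i ≤ j → p (j + 1) - p j ≤ 4 * (p (i + 1) - p i) :=
    fun hij => seq_lemma hpmono hp1 hp0 hplc hij
  -- the gain set
  let G : Set Y := A 3 \ A 2
  have hGm : MeasurableSet G := (hAm 3).diff (hAm 2)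
  have hνG : ν.real G = p I - p 0 := by
    have : ν.real G = ν.real (A 3) - ν.real (A 2) :=
      measureReal_sdiff (hAsub (by norm_num)) (hAm 2)
    simp only [p]
    rw [this, hgI, hg0]
  -- far increments
  have hfar : ∀ j, I ≤ j → (I:ℝ) * (p (j + 1) - p j) ≤ 4 * ν.real G := by
    intro j hj
    have hsum : ∑ i ∈ Finset.range I, (p (i + 1) - p i) = p I - p 0 := Finset.sum_range_sub p I
    have : ∑ _i ∈ Finset.range I, (p (j + 1) - p j) ≤ ∑ i ∈ Finset.range I, 4 * (p (i + 1) - p i) := by
      apply Finset.sum_le_sum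
      intro i hi
      exact hseq ((Finset.mem_range.1 hi).le.trans hj)
    rw [Finset.sum_const, Finset.card_range, nsmul_eq_mul, ← Finset.mul_sum, hsum] at this
    rw [hνG]
    exact this
  -- shells
  let w : ℕ → ℝ := fun j => 2 + I + (j:ℝ) / I
  have hwg : ∀ j, w j = g (I * I + j) := by
    intro j
    simp only [w, g]
    push_cast
    field_simp
    ring
  have hwmono : Monotone w := fun i j hij => by
    rw [hwg, hwg]
    exact hgmono (by omega)
  let S : ℕ → Set Y := fun j => A (w (j + 1)) \ A (w j)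
  have hSm : ∀ j, MeasurableSet (S j) := fun j => (hAm _).diff (hAm _)
  have hνS : ∀ j, (I:ℝ) * ν.real (S j) ≤ 4 * ν.real G := by
    intro j
    have h1 : ν.real (S j) = p (I * I + j + 1) - p (I * I + j) := by
      have : ν.real (S j) = ν.real (A (w (j + 1))) - ν.real (A (w j)) :=
        measureReal_sdiff (hAsub (hwmono (Nat.le_succ j))) (hAm _)
      rw [this, hwg, hwg]
      rfl
    rw [h1]
    refine hfar _ ?_
    nlinarith
  have hGnn : 0 ≤ ν.real G := measureReal_nonneg
  -- the sum of tails
  set V : ℝ := 2 + I with hV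
  have hw0 : w 0 = V := by simp [w, hV]
  have hRtw : ∀ j : ℕ, Rt (w j) ≤ (1 / 2) ^ j * Rt V := by
    intro j
    have hVnn : 0 ≤ V := by rw [hV]; positivity
    have hδ : 0 ≤ (j:ℝ) / I := by positivity
    have h1 := Rt_add_le hVnn hδ
    have h2 : exp (-(V * ((j:ℝ) / I))) ≤ (1 / 2) ^ j := by
      have a1 : (j:ℝ) ≤ V * ((j:ℝ) / I) := by
        have : V * ((j:ℝ) / I) = (V / I) * j := by ring
        rw [this]
        have : 1 ≤ V / I := by
          rw [le_div_iff₀ hIpos, hV]
          linarith
        have hj : (0:ℝ) ≤ j := by positivity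
        nlinarith
      have a2 : exp (-(V * ((j:ℝ) / I))) ≤ exp (-(j:ℝ)) := exp_le_exp.2 (by linarith)
      have a3 : exp (-(j:ℝ)) = (exp (-1)) ^ j := by
        rw [← Real.exp_nat_mul]
        congr 1
        ring
      have a4 : exp (-1) ≤ 1 / 2 := by
        have := Real.add_one_le_exp (1:ℝ)
        rw [Real.exp_neg, show (1:ℝ) / 2 = 2⁻¹ by norm_num]
        exact inv_anti₀ (by norm_num) (by linarith)
      rw [a3] at a2
      exact a2.trans (pow_le_pow_left₀ (Real.exp_pos _).le a4 j)
    have : Rt (w j) = Rt (V + (j:ℝ) / I) := rfl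
    rw [this]
    exact h1.trans (mul_le_mul_of_nonneg_right h2 (Rt_pos _).le)
  have hsumRt : ∀ J : ℕ, ∑ j ∈ Finset.range J, Rt (w j) ≤ 2 * Rt V := by
    intro J
    calc ∑ j ∈ Finset.range J, Rt (w j) ≤ ∑ j ∈ Finset.range J, (1 / 2) ^ j * Rt V :=
          Finset.sum_le_sum fun j _ => hRtw j
      _ = (∑ j ∈ Finset.range J, (1 / 2 : ℝ) ^ j) * Rt V := by rw [Finset.sum_mul]
      _ ≤ 2 * Rt V := mul_le_mul_of_nonneg_right (sum_geometric_two_le J) (Rt_pos _).le
  -- pointwise bound
  set rc : ℝ := Rt V / (2 * phi 0) * phi 4 with hrc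
  have hφ0 := phi_pos 0
  have hφ4 := phi_pos 4
  have hrc0 : 0 ≤ rc := by
    have := Rt_pos V
    positivity
  let D : ℕ → Y → ℝ := fun J y => ∑ j ∈ Finset.range J, (S j).indicator (fun _ => Rt (w j)) y
  have hDnn : ∀ J y, 0 ≤ D J y := fun J y =>
    Finset.sum_nonneg fun j _ => indicator_nonneg (fun _ _ => (Rt_pos _).le) _
  have hDind : ∀ J y, m y < Rt (w 0) → m y ≤ D J y ∨ m y < Rt (w J) := by
    intro J y hy
    induction J with
    | zero => exact Or.inr hy
    | succ J ih =>
      have hDs : D (J + 1) y = D J y + (S J).indicator (fun _ => Rt (w J)) y := by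
        simp only [D]
        rw [Finset.sum_range_succ]
      have hin : 0 ≤ (S J).indicator (fun _ => Rt (w J)) y :=
        indicator_nonneg (fun _ _ => (Rt_pos _).le) _
      rcases ih with h | h
      · left
        rw [hDs]
        linarith
      · by_cases h' : m y < Rt (w (J + 1))
        · exact Or.inr h'
        · left
          have hmem : y ∈ S J := ⟨not_lt.1 h', not_le.2 h⟩
          rw [hDs, indicator_of_mem hmem]
          linarith [hDnn J y]
  have hpt : ∀ J y, G.indicator (fun _ => rc) y - D J y - Rt (w J) ≤ ms y - m y := by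
    intro J y
    have hD := hDnn J y
    have hR := Rt_pos (w J)
    by_cases hy : y ∈ G
    · rw [indicator_of_mem hy]
      have := hgain y hy.1 (not_le.1 hy.2)
      linarith
    · rw [indicator_of_notMem hy]
      by_cases hyV : Rt V ≤ m y
      · have := hge y hyV
        linarith
      · have hy0 : m y < Rt (w 0) := by rw [hw0]; exact not_le.1 hyV
        rcases hDind J y hy0 with h | h
        · linarith [ms0 y]
        · linarith [ms0 y]
  have hDint : ∀ J, Integrable (D J) ν := fun J =>
    integrable_finset_sum _ fun j _ => (integrable_const _).indicator (hSm j)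
  have hDval : ∀ J, ∫ y, D J y ∂ν = ∑ j ∈ Finset.range J, ν.real (S j) * Rt (w j) := by
    intro J
    simp only [D]
    rw [integral_finset_sum _ fun j _ => (integrable_const _).indicator (hSm j)]
    apply Finset.sum_congr rfl
    intro j _
    rw [integral_indicator_const _ (hSm j), smul_eq_mul]
  have hfinal : ∀ J, -Rt (w J) ≤ ∫ y, ms y ∂ν - ∫ y, m y ∂ν := by
    intro J
    have hint1 : Integrable (fun y => G.indicator (fun _ => rc) y - D J y - Rt (w J)) ν :=
      (((integrable_const _).indicator hGm).sub (hDint J)).sub (integrable_const _)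
    have h1 := integral_mono hint1 (msint.sub mint) (hpt J)
    have e0 : ∫ x, (ms - m) x ∂ν = ∫ x, ms x ∂ν - ∫ x, m x ∂ν := integral_sub msint mint
    have e1 : ∫ x, (G.indicator (fun _ => rc) x - D J x - Rt (w J)) ∂ν
        = ν.real G * rc - (∑ j ∈ Finset.range J, ν.real (S j) * Rt (w j)) - Rt (w J) := by
      have i1 : Integrable (fun x => G.indicator (fun _ => rc) x) ν :=
        (integrable_const _).indicator hGm
      have i2 : Integrable (fun x => G.indicator (fun _ => rc) x - D J x) ν := i1.sub (hDint J)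
      rw [integral_sub i2 (integrable_const _), integral_sub i1 (hDint J),
        integral_indicator_const _ hGm, hDval J]
      simp only [integral_const, probReal_univ, smul_eq_mul, one_mul]
    rw [e0, e1] at h1
    -- numeric comparison
    have h2 : ∑ j ∈ Finset.range J, ν.real (S j) * Rt (w j)
        ≤ ν.real G * rc := by
      have h3 : ∀ j ∈ Finset.range J, ν.real (S j) * Rt (w j) ≤ (4 * ν.real G / I) * Rt (w j) := by
        intro j _
        apply mul_le_mul_of_nonneg_right _ (Rt_pos _).le
        rw [le_div_iff₀ hIpos]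
        linarith [hνS j]
      have h4 := Finset.sum_le_sum h3
      rw [← Finset.mul_sum] at h4
      have h5 : (4 * ν.real G / I) * ∑ j ∈ Finset.range J, Rt (w j) ≤ (4 * ν.real G / I) * (2 * Rt V) :=
        mul_le_mul_of_nonneg_left (hsumRt J) (by positivity)
      have h6 : (4 * ν.real G / I) * (2 * Rt V) ≤ ν.real G * rc := by
        rw [hrc]
        have e1 : (4 * ν.real G / I) * (2 * Rt V) = ν.real G * Rt V * (8 / I) := by
          field_simp
          ring
        have e2 : ν.real G * (Rt V / (2 * phi 0) * phi 4) = ν.real G * Rt V * (phi 4 / (2 * phi 0)) := by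
          field_simp
        rw [e1, e2]
        apply mul_le_mul_of_nonneg_left _ (mul_nonneg hGnn (Rt_pos _).le)
        rw [div_le_div_iff₀ hIpos (by positivity)]
        nlinarith
      linarith
    linarith
  have hlim : Tendsto (fun J : ℕ => -Rt (w J)) atTop (𝓝 0) := by
    have h1 : Tendsto w atTop atTop := by
      have : Tendsto (fun J : ℕ => (J:ℝ) / I) atTop atTop :=
        Tendsto.atTop_div_const hIpos tendsto_natCast_atTop_atTop
      exact tendsto_atTop_add_const_left _ _ this
    have h2 := (tendsto_Rt_atTop.comp h1).neg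
    simpa using h2
  have := le_of_tendsto' hlim hfinal
  linarith

end Vale.Agent.Lib.P262B
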