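import Mathlib

open Set

namespace Vale.Agent.Lib.P262B

/-- the star body of `K` in direction `u`: the union of the segments of `K` parallel to `u`
of length at least `2 ‖u‖`, each enlarged by `u` at both of its ends. -/
def starBody {E : Type*} [AddCommGroup E] [Module ℝ E] (K : Set E) (u : E) : Set E :=
  {x | ∃ p ∈ K, ∃ l : ℝ, 2 ≤ l ∧ p + l • u ∈ K ∧ ∃ τ : ℝ, -1 ≤ τ ∧ τ ≤ l + 1 ∧ x = p + τ • u}

section
variable {E : Type*} [AddCommGroup E] [Module ℝ E]

lemma starBody_convex {K : Set E} (hK : Convex ℝ K) (u : E) : Convex ℝ (starBody K u) := by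
  rintro x ⟨p, hp, l, hl, hpl, τ, h1, h2, rfl⟩ y ⟨p', hp', l', hl', hpl', τ', h1', h2', rfl⟩ a b ha hb hab
  refine ⟨a • p + b • p', hK hp hp' ha hb hab, a * l + b * l', ?_, ?_, a * τ + b * τ', ?_, ?_, ?_⟩
  · have : a * l + b * l' ≥ a * 2 + b * 2 := by
      have := mul_le_mul_of_nonneg_left hl ha
      have := mul_le_mul_of_nonneg_left hl' hb
      linarith
    have e : a * 2 + b * 2 = 2 := by rw [← add_mul, hab]; norm_num
    linarith
  · have := hK hpl hpl' ha hb hab
    convert this using 1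
    simp only [smul_add, add_smul, smul_smul]
    abel
  · have := mul_le_mul_of_nonneg_left h1 ha
    have := mul_le_mul_of_nonneg_left h1' hb
    have e : a * (-1) + b * (-1) = -1 := by rw [← add_mul, hab]; norm_num
    linarith
  · have := mul_le_mul_of_nonneg_left h2 ha
    have := mul_le_mul_of_nonneg_left h2' hb
    have e : a * (l + 1) + b * (l' + 1) = a * l + b * l' + 1 := by
      have : a * (l + 1) + b * (l' + 1) = a * l + b * l' + (a + b) := by ring
      rw [this, hab]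
    linarith
  · simp only [smul_add, add_smul, smul_smul]
    abel

lemma starBody_symm {K : Set E} (hK : ∀ x ∈ K, -x ∈ K) (u : E) :
    ∀ x ∈ starBody K u, -x ∈ starBody K u := by
  rintro x ⟨p, hp, l, hl, hpl, τ, h1, h2, rfl⟩
  refine ⟨-(p + l • u), hK _ hpl, l, hl, ?_, l - τ, by linarith, by linarith, ?_⟩
  · have := hK _ hp
    convert this using 1
    abel
  · simp only [sub_smul, neg_add]
    abel

lemma starBody_sign {K : Set E} (hK : Convex ℝ K) {u x : E} (hx : x ∈ starBody K u) :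
    x + u ∈ K ∨ x - u ∈ K := by
  obtain ⟨p, hp, l, hl, hpl, τ, h1, h2, rfl⟩ := hx
  have hl0 : 0 < l := by linarith
  have seg : ∀ s : ℝ, 0 ≤ s → s ≤ l → p + s • u ∈ K := by
    intro s hs hsl
    have := hK hp hpl (a := 1 - s / l) (b := s / l) (by
      rw [sub_nonneg, div_le_one hl0]; exact hsl) (by positivity) (by ring)
    convert this using 1
    simp only [smul_add, smul_smul, sub_smul, one_smul]
    rw [div_mul_cancel₀ _ hl0.ne']
    abel
  by_cases hτ : τ + 1 ≤ l
  · left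
    have := seg (τ + 1) (by linarith) hτ
    convert this using 1
    rw [add_smul, one_smul]
    abel
  · right
    have hτ' : l < τ + 1 := not_le.1 hτ
    have := seg (τ - 1) (by linarith) (by linarith)
    convert this using 1
    rw [sub_smul, one_smul]
    abel

end

lemma starBody_compact {E : Type*} [NormedAddCommGroup E] [NormedSpace ℝ E] {K : Set E} {u : E}
    (hK : IsCompact K) (hu : u ≠ 0) : IsCompact (starBody K u) := by
  obtain ⟨R, hR⟩ := hK.isBounded.exists_norm_le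
  have hu' : 0 < ‖u‖ := norm_pos_iff.2 hu
  set Λ := 2 * R / ‖u‖ with hΛ
  let B : Set (E × ℝ × ℝ) := K ×ˢ (Icc 2 Λ ×ˢ Icc (-1) (Λ + 1))
  have hB : IsCompact B := hK.prod (isCompact_Icc.prod isCompact_Icc)
  let F : Set (E × ℝ × ℝ) := {q | q.1 + q.2.1 • u ∈ K} ∩ {q | q.2.2 ≤ q.2.1 + 1}
  have hF : IsClosed F :=
    (hK.isClosed.preimage (by fun_prop)).inter (isClosed_le (by fun_prop) (by fun_prop))
  have hC : IsCompact (B ∩ F) := hB.inter_right hF
  have : starBody K u = (fun q : E × ℝ × ℝ => q.1 + q.2.2 • u) '' (B ∩ F) := by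
    ext x
    constructor
    · rintro ⟨p, hp, l, hl, hpl, τ, h1, h2, rfl⟩
      have hlΛ : l ≤ Λ := by
        rw [hΛ, le_div_iff₀ hu']
        have h1 := hR _ hp
        have h2 := hR _ hpl
        have h3 : ‖l • u‖ ≤ ‖p + l • u‖ + ‖p‖ := by
          calc ‖l • u‖ = ‖(p + l • u) - p‖ := by congr 1; abel
            _ ≤ ‖p + l • u‖ + ‖p‖ := norm_sub_le _ _
        rw [norm_smul, Real.norm_of_nonneg (by linarith)] at h3
        linarith
      exact ⟨(p, l, τ), ⟨⟨hp, ⟨hl, hlΛ⟩, ⟨h1, by linarith⟩⟩, ⟨hpl, h2⟩⟩, rfl⟩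
    · rintro ⟨⟨p, l, τ⟩, ⟨⟨hp, hl, h1⟩, hpl, h2⟩, rfl⟩
      exact ⟨p, hp, l, hl.1, hpl, τ, h1.1, h2, rfl⟩
  rw [this]
  exact hC.image (by fun_prop)

end Vale.Agent.Lib.P262B
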