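import Vale.Agent.Lib.P262B.GaussPL
import Vale.Agent.Lib.P262B.Shell
import Vale.Agent.Lib.P262B.Star

open MeasureTheory Set ProbabilityTheory Real
open scoped ENNReal

namespace Vale.Agent.Lib.P262B

/-- insertion of a first coordinate -/
noncomputable abbrev ins {n : ℕ} (t : ℝ) (y : Fin n → ℝ) : Fin (n + 1) → ℝ := Fin.insertNth 0 t y

lemma ins_comb {n : ℕ} (a b t₁ t₂ : ℝ) (y₁ y₂ : Fin n → ℝ) :
    a • ins t₁ y₁ + b • ins t₂ y₂ = ins (a * t₁ + b * t₂) (a • y₁ + b • y₂) := by
  ext i
  refine Fin.cases ?_ (fun j => ?_) i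
  · simp [ins]
  · simp [ins]

/-- first basis vector -/
noncomputable def e0 (n : ℕ) : Fin (n + 1) → ℝ := ins 1 0

lemma ins_add_smul_e0 {n : ℕ} (t c : ℝ) (y : Fin n → ℝ) : ins t y + c • e0 n = ins (t + c) y := by
  ext i
  refine Fin.cases ?_ (fun j => ?_) i
  · simp [ins, e0]
  · simp [ins, e0]

lemma e0_ne_zero (n : ℕ) : e0 n ≠ 0 := by
  intro h
  have := congrFun h 0
  simp [e0, ins] at this

lemma continuous_ins_left {n : ℕ} (y : Fin n → ℝ) : Continuous fun t : ℝ => ins t y := by
  refine continuous_pi fun i => ?_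
  refine Fin.cases ?_ (fun j => ?_) i
  · simp only [ins, Fin.insertNth_apply_same]
    exact continuous_id'
  · simpa [ins] using continuous_const

/-- slice of a set in the first coordinate -/
def slice {n : ℕ} (K : Set (Fin (n + 1) → ℝ)) (y : Fin n → ℝ) : Set ℝ := {t | ins t y ∈ K}

/-- Gaussian measure of a slice -/
noncomputable def fib {n : ℕ} (K : Set (Fin (n + 1) → ℝ)) (y : Fin n → ℝ) : ℝ :=
  (gaussianReal 0 1).real (slice K y)

lemma gauss_real_Icc {a b : ℝ} (hab : a ≤ b) : (gaussianReal 0 1).real (Icc a b) = Phi b - Phi a := by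
  have h : ∫ x in Icc a b, gaussianPDFReal 0 1 x = Phi b - Phi a := by
    rw [Phi_sub, integral_Icc_eq_integral_Ioc, intervalIntegral.integral_of_le hab]
    rfl
  rw [measureReal_def, gaussianReal_apply_eq_integral 0 one_ne_zero, h,
    ENNReal.toReal_ofReal (sub_nonneg.2 (Phi_strictMono.monotone hab))]

lemma slice_convex {n : ℕ} {K : Set (Fin (n + 1) → ℝ)} (hc : Convex ℝ K) (y : Fin n → ℝ) :
    Convex ℝ (slice K y) := by
  intro t₁ h₁ t₂ h₂ a b ha hb hab
  have := hc h₁ h₂ ha hb hab
  rw [ins_comb, ← add_smul, hab, one_smul] at this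
  simpa [slice] using this

lemma fib_ge {n : ℕ} {K : Set (Fin (n + 1) → ℝ)} (hc : Convex ℝ K) {y : Fin n → ℝ} {a b : ℝ}
    (hab : a ≤ b) (ha : ins a y ∈ K) (hb : ins b y ∈ K) : Phi b - Phi a ≤ fib K y := by
  rw [← gauss_real_Icc hab]
  apply measureReal_mono _ (measure_ne_top _ _)
  exact (slice_convex hc y).ordConnected.out ha hb

lemma fib_eq {n : ℕ} {K : Set (Fin (n + 1) → ℝ)} (hK : IsCompact K) (hc : Convex ℝ K)
    {y : Fin n → ℝ} (h : 0 < fib K y) :
    ∃ a b, a ≤ b ∧ ins a y ∈ K ∧ ins b y ∈ K ∧ fib K y = Phi b - Phi a := by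
  have hne : (slice K y).Nonempty := by
    by_contra hemp
    rw [not_nonempty_iff_eq_empty] at hemp
    simp [fib, hemp] at h
  obtain ⟨R, hR⟩ := hK.isBounded.exists_norm_le
  have hclosed : IsClosed (slice K y) := hK.isClosed.preimage (continuous_ins_left y)
  have hsub : slice K y ⊆ Icc (-R) R := by
    intro t ht
    have h1 := hR _ ht
    have h2 := norm_le_pi_norm (ins t y) 0
    have h3 : ins t y 0 = t := by simp [ins]
    rw [h3, Real.norm_eq_abs] at h2
    exact abs_le.1 (h2.trans h1)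
  have hcomp : IsCompact (slice K y) := isCompact_Icc.of_isClosed_subset hclosed hsub
  have ha := hcomp.sInf_mem hne
  have hb := hcomp.sSup_mem hne
  have hle : sInf (slice K y) ≤ sSup (slice K y) := csInf_le_csSup hne hcomp.bddBelow hcomp.bddAbove
  refine ⟨_, _, hle, ha, hb, ?_⟩
  have : slice K y = Icc (sInf (slice K y)) (sSup (slice K y)) := by
    apply Subset.antisymm
    · intro t ht
      exact ⟨csInf_le hcomp.bddBelow ht, le_csSup hcomp.bddAbove ht⟩
    · exact (slice_convex hc y).ordConnected.out ha hb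
  rw [fib, this, gauss_real_Icc hle, ← this]

lemma measurable_fib {n : ℕ} {K : Set (Fin (n + 1) → ℝ)} (hK : MeasurableSet K) :
    Measurable (fib K : (Fin n → ℝ) → ℝ) := by
  have hS : MeasurableSet ((fun q : ℝ × (Fin n → ℝ) => ins q.1 q.2) ⁻¹' K) :=
    (measurable_insert n) hK
  exact (measurable_measure_prodMk_right hS).ennreal_toReal

lemma integral_fib {n : ℕ} {K : Set (Fin (n + 1) → ℝ)} (hK : MeasurableSet K) :
    ∫ y, fib K y ∂gam n = (gam (n + 1)).real K := by
  have hS : MeasurableSet ((fun q : ℝ × (Fin n → ℝ) => ins q.1 q.2) ⁻¹' K) :=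
    (measurable_insert n) hK
  have h := (gam_mp n).measure_preimage hK.nullMeasurableSet
  have h' : ((gaussianReal 0 1).prod (gam n)) ((fun q : ℝ × (Fin n → ℝ) => ins q.1 q.2) ⁻¹' K)
      = gam (n + 1) K := h
  rw [Measure.prod_apply_symm hS] at h'
  rw [measureReal_def, ← h']
  have := integral_toReal (μ := gam n)
    (f := fun y => gaussianReal 0 1 ((fun x => (x, y)) ⁻¹' ((fun q : ℝ × (Fin n → ℝ) => ins q.1 q.2) ⁻¹' K)))
    (measurable_measure_prodMk_right hS).aemeasurable
    (ae_of_all _ fun y => measure_lt_top _ _)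
  rw [← this]
  rfl

lemma Phi_sub_ge {a b c : ℝ} (hab : a ≤ b) (h : ∀ t ∈ Icc a b, t ^ 2 ≤ c ^ 2) :
    (b - a) * phi c ≤ Phi b - Phi a := by
  rw [Phi_sub]
  have h1 : ∫ _t in a..b, phi c = (b - a) * phi c := by simp
  rw [← h1]
  exact intervalIntegral.integral_mono_on hab (continuous_const.intervalIntegrable _ _)
    (continuous_phi.intervalIntegrable _ _) fun t ht => phi_le_of_sq_le (h t ht)

lemma Phi_sub_le {a b : ℝ} (hab : a ≤ b) : Phi b - Phi a ≤ (b - a) * phi 0 := by
  rw [Phi_sub]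
  have h1 : ∫ _t in a..b, phi 0 = (b - a) * phi 0 := by simp
  rw [← h1]
  exact intervalIntegral.integral_mono_on hab (continuous_phi.intervalIntegrable _ _)
    (continuous_const.intervalIntegrable _ _) fun t _ => phi_le_of_sq_le (by
      have : (0:ℝ) ^ 2 = 0 := by norm_num
      rw [this]
      positivity)

/-- the universal integer parameter -/
noncomputable def I0 : ℕ := ⌈16 * phi 0 / phi 4⌉₊ + 1

lemma I0_pos : 1 ≤ I0 := by simp [I0]

lemma I0_spec : 16 * phi 0 ≤ I0 * phi 4 := by
  have h := Nat.le_ceil (16 * phi 0 / phi 4)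
  rw [div_le_iff₀ (phi_pos 4)] at h
  have h2 : ((⌈16 * phi 0 / phi 4⌉₊ : ℕ) : ℝ) ≤ (I0 : ℝ) := by
    simp [I0]
  exact h.trans (mul_le_mul_of_nonneg_right h2 (phi_pos 4).le)

/-- the universal step size -/
noncomputable def r0 : ℝ := Rt (2 + (I0 : ℝ)) / (2 * phi 0)

lemma r0_pos : 0 < r0 := by
  have := Rt_pos (2 + (I0 : ℝ))
  have := phi_pos 0
  unfold r0
  positivity

lemma r0_le_one : r0 ≤ 1 := by
  have h0 := phi_pos 0
  unfold r0
  rw [div_le_one (by positivity)]
  have h1 : Rt (2 + (I0 : ℝ)) ≤ Rt 2 :=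
    Rt_strictAnti.antitone (by
      have : (0:ℝ) ≤ I0 := by positivity
      linarith)
  have h2 := Rt_two_le
  have h3 := Phi_sub_le (a := 0) (b := 2) (by norm_num)
  have h4 : Phi 2 = 1 - Rt 2 := by rw [Rt_eq]; ring
  rw [Phi_zero, h4] at h3
  linarith

lemma mem_star_of {n : ℕ} {K : Set (Fin (n + 1) → ℝ)} {r : ℝ} (hr : 0 < r) {a b t : ℝ}
    {y : Fin n → ℝ} (ha : ins a y ∈ K) (hb : ins b y ∈ K) (hl : 2 * r ≤ b - a)
    (ht1 : a - r ≤ t) (ht2 : t ≤ b + r) : ins t y ∈ starBody K (r • e0 n) := by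
  have key : ∀ c : ℝ, ins a y + (c / r) • (r • e0 n) = ins (a + c) y := by
    intro c
    rw [smul_smul, div_mul_cancel₀ _ hr.ne', ins_add_smul_e0]
  refine ⟨ins a y, ha, (b - a) / r, ?_, ?_, (t - a) / r, ?_, ?_, ?_⟩
  · rw [le_div_iff₀ hr]
    exact hl
  · rw [key]
    convert hb using 2
    ring
  · rw [le_div_iff₀ hr]
    linarith
  · rw [div_add_one hr.ne']
    apply div_le_div_of_nonneg_right _ hr.le
    linarith
  · rw [key]
    congr 1
    ring

/-- **Main lemma in coordinates**: the star body in direction `r0 e0` of a compact convex set of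
Gaussian measure at least one half has at least the same Gaussian measure. -/
theorem main_coord {n : ℕ} {K : Set (Fin (n + 1) → ℝ)} (hK : IsCompact K) (hc : Convex ℝ K)
    (h12 : 1 / 2 ≤ (gam (n + 1)).real K) :
    (gam (n + 1)).real K ≤ (gam (n + 1)).real (starBody K (r0 • e0 n)) := by
  have hr := r0_pos
  set u := r0 • e0 n with hu
  have hune : u ≠ 0 := smul_ne_zero hr.ne' (e0_ne_zero n)
  have hS : IsCompact (starBody K u) := starBody_compact hK hune
  have hSc : Convex ℝ (starBody K u) := starBody_convex hc u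
  have hm := measurable_fib (n := n) hK.measurableSet
  have hms := measurable_fib (n := n) hS.measurableSet
  rw [← integral_fib hK.measurableSet, ← integral_fib hS.measurableSet]
  have hIcast : (3:ℝ) ≤ 2 + (I0 : ℝ) := by
    have : (1:ℝ) ≤ I0 := by exact_mod_cast I0_pos
    linarith
  -- common slice information
  have info : ∀ y, Rt (2 + (I0 : ℝ)) ≤ fib K y → ∃ a b, a ≤ b ∧ fib K y = Phi b - Phi a ∧
      Phi (b + r0) - Phi (a - r0) ≤ fib (starBody K u) y := by
    intro y hy
    have hpos : 0 < fib K y := lt_of_lt_of_le (Rt_pos _) hy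
    obtain ⟨a, b, hab, ha, hb, e⟩ := fib_eq hK hc hpos
    refine ⟨a, b, hab, e, ?_⟩
    have hlen : 2 * r0 ≤ b - a := by
      have h0 := phi_pos 0
      have h1 := Phi_sub_le hab
      rw [← e] at h1
      have h2 := hy.trans h1
      have : 2 * r0 = Rt (2 + (I0 : ℝ)) / phi 0 := by
        unfold r0
        field_simp
      rw [this, div_le_iff₀ h0]
      exact h2
    exact fib_ge hSc (by linarith) (mem_star_of hr ha hb hlen le_rfl (by linarith))
      (mem_star_of hr ha hb hlen (by linarith) le_rfl)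
  refine shell (gam n) hm hms (fun y => measureReal_nonneg) (fun y => measureReal_le_one)
    (fun y => measureReal_nonneg) (fun y => measureReal_le_one) I0_pos I0_spec ?_ ?_ ?_ ?_
  · rw [integral_fib hK.measurableSet]
    exact h12
  · intro v₁ v₂
    apply gauss_pl_set n (measurableSet_le measurable_const hm) (measurableSet_le measurable_const hm)
      (measurableSet_le measurable_const hm)
    intro y₁ hy₁ y₂ hy₂
    have p₁ : 0 < fib K y₁ := lt_of_lt_of_le (Rt_pos v₁) hy₁
    have p₂ : 0 < fib K y₂ := lt_of_lt_of_le (Rt_pos v₂) hy₂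
    obtain ⟨a₁, b₁, hab₁, ha₁, hb₁, e₁⟩ := fib_eq hK hc p₁
    obtain ⟨a₂, b₂, hab₂, ha₂, hb₂, e₂⟩ := fib_eq hK hc p₂
    have E := ehrhard_mid (a₁ := a₁) (b₁ := b₁) (a₂ := a₂) (b₂ := b₂) (v₁ := v₁) (v₂ := v₂)
      (by rw [← e₁]; exact hy₁) (by rw [← e₂]; exact hy₂)
    refine E.trans (fib_ge hc (by linarith) ?_ ?_)
    · have := hc ha₁ ha₂ (a := 1 / 2) (b := 1 / 2) (by norm_num) (by norm_num) (by norm_num)
      rw [ins_comb] at this
      convert this using 2
      ring
    · have := hc hb₁ hb₂ (a := 1 / 2) (b := 1 / 2) (by norm_num) (by norm_num) (by norm_num)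
      rw [ins_comb] at this
      convert this using 2
      ring
  · intro y hy
    obtain ⟨a, b, hab, e, h⟩ := info y hy
    rw [e]
    refine le_trans ?_ h
    have h1 := Phi_strictMono.monotone (show b ≤ b + r0 by linarith)
    have h2 := Phi_strictMono.monotone (show a - r0 ≤ a by linarith)
    linarith
  · intro y hy3 hy2
    have hy : Rt (2 + (I0 : ℝ)) ≤ fib K y := (Rt_strictAnti.antitone hIcast).trans hy3
    obtain ⟨a, b, hab, e, h⟩ := info y hy
    rw [e] at hy3 hy2 ⊢
    refine le_trans ?_ h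
    change Phi b - Phi a + r0 * phi 4 ≤ _
    have hr1 := r0_le_one
    have hPos := Phi_pos
    have hLt := Phi_lt_one
    have ha3 : a ≤ 3 := by
      by_contra hcon
      have := Phi_strictMono (not_le.1 hcon)
      have h3 : Rt 3 = 1 - Phi 3 := Rt_eq 3
      linarith [hLt b]
    have hb3 : -3 ≤ b := by
      by_contra hcon
      have := Phi_strictMono (not_le.1 hcon)
      have h3 : Rt 3 = Phi (-3) := rfl
      linarith [hPos a]
    have hor : -3 ≤ a ∨ b ≤ 3 := by
      by_contra hcon
      push Not at hcon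
      have h3 : Rt 3 = Phi (-3) := rfl
      have h3' : Rt 3 = 1 - Phi 3 := Rt_eq 3
      have h4 := Phi_strictMono hcon.1
      have h5 := Phi_strictMono hcon.2
      have h6 := Rt_two_le
      have h7 : Rt 3 ≤ Rt 2 := Rt_strictAnti.antitone (by norm_num)
      linarith
    have hm1 := Phi_strictMono.monotone (show b ≤ b + r0 by linarith)
    have hm2 := Phi_strictMono.monotone (show a - r0 ≤ a by linarith)
    rcases hor with h1 | h1
    · have := Phi_sub_ge (a := a - r0) (b := a) (c := 4) (by linarith) (by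
        intro t ht
        have h5 := ht.1
        have h6 := ht.2
        nlinarith)
      have e2 : a - (a - r0) = r0 := by ring
      rw [e2] at this
      linarith
    · have := Phi_sub_ge (a := b) (b := b + r0) (c := 4) (by linarith) (by
        intro t ht
        have h5 := ht.1
        have h6 := ht.2
        nlinarith)
      have e2 : b + r0 - b = r0 := by ring
      rw [e2] at this
      linarith

end Vale.Agent.Lib.P262B
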