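import Vale.Agent.Lib.P262B.MainCoord

open MeasureTheory Set ProbabilityTheory WithLp
open scoped ENNReal

namespace Vale.Agent.Lib.P262B

/-- Euclidean space of dimension `m` -/
abbrev Eu (m : ℕ) := EuclideanSpace ℝ (Fin m)

/-- **Main lemma**: the star body in a direction of norm `r0` of a compact convex set of
Gaussian measure at least one half has at least the same Gaussian measure. -/
theorem main_E {n : ℕ} {K : Set (Eu (n + 1))} (hK : IsCompact K) (hc : Convex ℝ K)
    {u : Eu (n + 1)} (hu : ‖u‖ = r0) (h12 : 1 / 2 ≤ (stdGaussian (Eu (n + 1))).real K) :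
    (stdGaussian (Eu (n + 1))).real K ≤ (stdGaussian (Eu (n + 1))).real (starBody K u) := by
  have hr := r0_pos
  have hune : u ≠ 0 := by
    rw [← norm_pos_iff, hu]
    exact hr
  let v : Fin (n + 1) → Eu (n + 1) := fun _ => r0⁻¹ • u
  have hvn : ‖r0⁻¹ • u‖ = 1 := by
    rw [norm_smul, hu, norm_inv, Real.norm_of_nonneg hr.le, inv_mul_cancel₀ hr.ne']
  have hv : Orthonormal ℝ (({0} : Set (Fin (n + 1))).domRestrict v) := by
    rw [orthonormal_iff_ite]
    rintro ⟨i, hi⟩ ⟨j, hj⟩
    have hi' : i = 0 := hi
    have hj' : j = 0 := hj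
    subst hi' hj'
    simp only [domRestrict_apply, v, if_true]
    rw [real_inner_self_eq_norm_sq, hvn]
    norm_num
  obtain ⟨b, hb⟩ := hv.exists_orthonormalBasis_extension_of_card_eq (by simp)
  have hb0 : b 0 = r0⁻¹ • u := hb 0 rfl
  let T : (Fin (n + 1) → ℝ) → Eu (n + 1) := fun x => ∑ i, x i • b i
  have hT : Continuous T := by fun_prop
  have hTm : Measurable T := hT.measurable
  have hg : stdGaussian (Eu (n + 1)) = (gam (n + 1)).map T :=
    stdGaussian_eq_map_pi_orthonormalBasis b
  have T_eq : ∀ x, T x = b.repr.symm (toLp 2 x) := fun x => by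
    rw [← b.sum_repr_symm]
  have T_add : ∀ x y, T (x + y) = T x + T y := fun x y => by
    simp only [T, Pi.add_apply, add_smul, Finset.sum_add_distrib]
  have T_smul : ∀ (c : ℝ) x, T (c • x) = c • T x := fun c x => by
    simp only [T, Pi.smul_apply, smul_eq_mul, mul_smul, Finset.smul_sum]
  have T_e0 : T (r0 • e0 n) = u := by
    rw [T_smul]
    have : T (e0 n) = b 0 := by
      simp only [T, e0]
      rw [Fin.sum_univ_succ]
      simp [ins]
    rw [this, hb0, smul_smul, mul_inv_cancel₀ hr.ne', one_smul]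
  let S : Eu (n + 1) → (Fin (n + 1) → ℝ) := fun x => ofLp (b.repr x)
  have hS : Continuous S := by
    have h1 : Continuous fun x : Eu (n + 1) => b.repr x := b.repr.continuous
    exact (PiLp.continuous_ofLp 2 _).comp h1
  have hTS : ∀ x, T (S x) = x := fun x => by
    rw [T_eq]
    simp [S]
  have hST : ∀ x, S (T x) = x := fun x => by
    rw [T_eq]
    simp [S]
  set K' : Set (Fin (n + 1) → ℝ) := T ⁻¹' K with hK'def
  have hK'im : K' = S '' K := by
    ext x
    constructor
    · intro hx
      exact ⟨T x, hx, hST x⟩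
    · rintro ⟨y, hy, rfl⟩
      change T (S y) ∈ K
      rwa [hTS]
  have hK' : IsCompact K' := by
    rw [hK'im]
    exact hK.image hS
  have hc' : Convex ℝ K' := by
    intro x hx y hy a c ha hc0 hac
    change T (a • x + c • y) ∈ K
    rw [T_add, T_smul, T_smul]
    exact hc hx hy ha hc0 hac
  have hSt : IsCompact (starBody K u) := starBody_compact hK hune
  have e1 : (stdGaussian (Eu (n + 1))).real K = (gam (n + 1)).real K' := by
    rw [hg]
    exact map_measureReal_apply hTm hK.measurableSet
  have e2 : (stdGaussian (Eu (n + 1))).real (starBody K u)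
      = (gam (n + 1)).real (T ⁻¹' starBody K u) := by
    rw [hg]
    exact map_measureReal_apply hTm hSt.measurableSet
  have hsub : starBody K' (r0 • e0 n) ⊆ T ⁻¹' starBody K u := by
    rintro x ⟨p, hp, l, hl, hpl, τ, h1, h2, rfl⟩
    refine ⟨T p, hp, l, hl, ?_, τ, h1, h2, ?_⟩
    · have : T (p + l • r0 • e0 n) = T p + l • u := by rw [T_add, T_smul, T_e0]
      rw [← this]
      exact hpl
    · rw [T_add, T_smul, T_e0]
  rw [e1, e2]
  rw [e1] at h12
  exact (main_coord hK' hc' h12).trans (measureReal_mono hsub (measure_ne_top _ _))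

end Vale.Agent.Lib.P262B
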