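import Vale.Agent.Lib.P262B.Tail

open MeasureTheory Set ProbabilityTheory WithLp Real
open scoped ENNReal

namespace Vale.Agent.Lib.P262B

/-- signed value of a vector with sign marker -/
noncomputable def sv {α : Type*} {m : ℕ} (f : α → Eu m) (q : α × Bool) : Eu m :=
  if q.2 then f q.1 else - f q.1

/-- recursion for the signs; the partial sums are read from the end of the list -/
theorem signs_rec {α : Type*} {n : ℕ} {R δ : ℝ} (f : α → Eu (n + 1))
    (hδ : (stdGaussian (Eu (n + 1))).real (Metric.closedBall 0 R)ᶜ ≤ δ) (l : List α)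
    (hf : ∀ a ∈ l, ‖f a‖ = r0) :
    ∀ L : Set (Eu (n + 1)), IsCompact L → Convex ℝ L → (∀ x ∈ L, -x ∈ L) →
      L ⊆ Metric.closedBall 0 R → 1 / 2 + (l.length : ℝ) * δ ≤ (stdGaussian (Eu (n + 1))).real L →
      ∃ S : List (α × Bool), S.map Prod.fst = l ∧
        (∀ k, ((S.drop k).map (sv f)).sum ∈ Metric.closedBall (0 : Eu (n + 1)) R) ∧
        (S.map (sv f)).sum ∈ L := by
  have hδ0 : 0 ≤ δ := le_trans measureReal_nonneg hδ
  induction l with
  | nil =>
    intro L hL hLc hLs hLR hLm
    have hpos : 0 < (stdGaussian (Eu (n + 1))).real L := by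
      simp only [List.length_nil, Nat.cast_zero, zero_mul, add_zero] at hLm
      linarith
    have hne : L.Nonempty := by
      by_contra hemp
      rw [not_nonempty_iff_eq_empty] at hemp
      simp [hemp] at hpos
    obtain ⟨x, hx⟩ := hne
    have h0 : (0 : Eu (n + 1)) ∈ L := by
      have := hLc hx (hLs x hx) (a := 1 / 2) (b := 1 / 2) (by norm_num) (by norm_num) (by norm_num)
      simpa using this
    refine ⟨[], rfl, ?_, ?_⟩
    · intro k
      simpa using hLR h0
    · simpa using h0
  | cons a t ih =>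
    intro L hL hLc hLs hLR hLm
    have hfa : ‖f a‖ = r0 := hf a (by simp)
    have hft : ∀ b ∈ t, ‖f b‖ = r0 := fun b hb => hf b (by simp [hb])
    have hune : f a ≠ 0 := by
      rw [← norm_pos_iff, hfa]
      exact r0_pos
    have hL12 : 1 / 2 ≤ (stdGaussian (Eu (n + 1))).real L := by
      have h1 : 0 ≤ ((a :: t).length : ℝ) * δ := by positivity
      linarith
    have hstar := main_E hL hLc hfa hL12
    let L' := Metric.closedBall (0 : Eu (n + 1)) R ∩ starBody L (f a)
    have hS : IsCompact (starBody L (f a)) := starBody_compact hL hune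
    have hL' : IsCompact L' := (isCompact_closedBall _ _).inter hS
    have hL'c : Convex ℝ L' := (convex_closedBall _ _).inter (starBody_convex hLc _)
    have hL's : ∀ x ∈ L', -x ∈ L' := by
      intro x hx
      refine ⟨?_, starBody_symm hLs _ x hx.2⟩
      have := hx.1
      simpa using this
    have hL'm : 1 / 2 + (t.length : ℝ) * δ ≤ (stdGaussian (Eu (n + 1))).real L' := by
      have h1 : (stdGaussian (Eu (n + 1))).real (starBody L (f a))
          ≤ (stdGaussian (Eu (n + 1))).real L'
            + (stdGaussian (Eu (n + 1))).real (Metric.closedBall 0 R)ᶜ := by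
        have hsub : starBody L (f a) ⊆ L' ∪ (Metric.closedBall 0 R)ᶜ := by
          intro x hx
          by_cases hb : x ∈ Metric.closedBall (0 : Eu (n + 1)) R
          · exact Or.inl ⟨hb, hx⟩
          · exact Or.inr hb
        exact (measureReal_mono hsub (measure_ne_top _ _)).trans
          (measureReal_union_le _ _)
      have h2 : ((a :: t).length : ℝ) = t.length + 1 := by simp
      rw [h2] at hLm
      nlinarith
    obtain ⟨S', hS'1, hS'2, hS'3⟩ := ih hft L' hL' hL'c hL's (fun x hx => hx.1) hL'm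
    set x := (S'.map (sv f)).sum with hx
    have hsign := starBody_sign hLc hS'3.2
    have key : ∃ b : Bool, sv f (a, b) + x ∈ L := by
      rcases hsign with h | h
      · refine ⟨true, ?_⟩
        simp only [sv, if_true]
        rwa [add_comm (f a) x]
      · refine ⟨false, ?_⟩
        simp only [sv, Bool.false_eq_true, if_false]
        convert h using 1
        abel
    obtain ⟨b, hb⟩ := key
    refine ⟨(a, b) :: S', by simp [hS'1], ?_, ?_⟩
    · intro k
      cases k with
      | zero =>
        simp only [List.drop_zero, List.map_cons, List.sum_cons]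
        exact hLR hb
      | succ k =>
        simpa using hS'2 k
    · simpa using hb

/-- signs for `N` vectors of norm `r0` in dimension `n + 1`, partial sums from the end -/
theorem signs_rad {α : Type*} {n : ℕ} (N : ℕ) (f : α → Eu (n + 1)) (l : List α)
    (hN : l.length ≤ N) (hf : ∀ a ∈ l, ‖f a‖ = r0) :
    ∃ S : List (α × Bool), S.map Prod.fst = l ∧
      ∀ k, ‖((S.drop k).map (sv f)).sum‖ ≤ Rad (n + 1) N := by
  have hδ := gauss_tail_Rad (n + 1) N
  set δ : ℝ := 1 / (2 * (N:ℝ) + 2) with hδdef
  have hNpos : (0:ℝ) < 2 * (N:ℝ) + 2 := by positivity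
  have hmain : 1 / 2 + (l.length : ℝ) * δ
      ≤ (stdGaussian (Eu (n + 1))).real (Metric.closedBall 0 (Rad (n + 1) N)) := by
    have h1 : (stdGaussian (Eu (n + 1))).real (Metric.closedBall 0 (Rad (n + 1) N))
        = 1 - (stdGaussian (Eu (n + 1))).real (Metric.closedBall 0 (Rad (n + 1) N))ᶜ := by
      rw [probReal_compl_eq_one_sub Metric.isClosed_closedBall.measurableSet]
      ring
    rw [h1]
    have h2 : (l.length : ℝ) ≤ N := by exact_mod_cast hN
    have h3 : ((l.length : ℝ) + 1) * δ ≤ 1 / 2 := by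
      rw [hδdef]
      rw [mul_one_div, div_le_iff₀ hNpos]
      linarith
    nlinarith
  obtain ⟨S, h1, h2, _⟩ := signs_rec f hδ l hf _ (isCompact_closedBall _ _) (convex_closedBall _ _)
    (by
      intro x hx
      simpa using hx) le_rfl hmain
  refine ⟨S, h1, fun k => ?_⟩
  have := h2 k
  simpa using this

/-- lift of a vector of the unit ball to a vector of norm exactly `r0` one dimension higher -/
noncomputable def lift {d : ℕ} (v : Eu d) : Eu (d + 1) :=
  toLp 2 (Fin.cons (r0 * √(1 - ‖v‖ ^ 2)) (fun j => r0 * v j))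

/-- forgetting the new coordinate -/
noncomputable def proj {d : ℕ} (x : Eu (d + 1)) : Eu d := toLp 2 (fun j => x (Fin.succ j))

lemma norm_lift {d : ℕ} {v : Eu d} (hv : ‖v‖ ≤ 1) : ‖lift v‖ = r0 := by
  have hr := r0_pos
  have h1 : ‖lift v‖ ^ 2 = r0 ^ 2 := by
    rw [EuclideanSpace.real_norm_sq_eq, Fin.sum_univ_succ]
    simp only [lift, Fin.cons_zero, Fin.cons_succ, PiLp.toLp_apply]
    have h2 : 0 ≤ 1 - ‖v‖ ^ 2 := by
      have := pow_le_one₀ (n := 2) (norm_nonneg v) hv
      linarith
    rw [mul_pow, Real.sq_sqrt h2]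
    simp_rw [mul_pow]
    rw [← Finset.mul_sum, ← EuclideanSpace.real_norm_sq_eq]
    ring
  exact (pow_left_inj₀ (norm_nonneg _) hr.le (by norm_num)).1 h1

lemma proj_lift {d : ℕ} (v : Eu d) : proj (lift v) = r0 • v := by
  ext j
  simp [proj, lift]

lemma proj_neg {d : ℕ} (x : Eu (d + 1)) : proj (-x) = -proj x := by
  ext j
  simp [proj]

lemma proj_add {d : ℕ} (x y : Eu (d + 1)) : proj (x + y) = proj x + proj y := by
  ext j
  simp [proj]

lemma proj_zero {d : ℕ} : proj (0 : Eu (d + 1)) = 0 := by
  ext j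
  simp [proj]

lemma norm_proj_le {d : ℕ} (x : Eu (d + 1)) : ‖proj x‖ ≤ ‖x‖ := by
  have h : ‖proj x‖ ^ 2 ≤ ‖x‖ ^ 2 := by
    rw [EuclideanSpace.real_norm_sq_eq, EuclideanSpace.real_norm_sq_eq, Fin.sum_univ_succ]
    simp only [proj, PiLp.toLp_apply]
    nlinarith [sq_nonneg (x 0)]
  exact (pow_le_pow_iff_left₀ (norm_nonneg _) (norm_nonneg _) (by norm_num)).1 h

lemma proj_sum_sv {d : ℕ} (T : List (Eu d × Bool)) :
    proj ((T.map (sv lift)).sum) = r0 • (T.map (sv id)).sum := by
  induction T with
  | nil => simp [proj_zero]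
  | cons q t ih =>
    simp only [List.map_cons, List.sum_cons, proj_add, ih, smul_add]
    congr 1
    rcases q with ⟨v, b⟩
    cases b
    · simp [sv, proj_neg, proj_lift]
    · simp [sv, proj_lift]

/-- **Signed prefix bound** in list form. -/
theorem signed_bound {d : ℕ} (N : ℕ) (l : List (Eu d)) (hN : l.length ≤ N) (hl : ∀ v ∈ l, ‖v‖ ≤ 1) :
    ∃ T : List (Eu d × Bool), T.map Prod.fst = l ∧
      ∀ k, ‖((T.take k).map (sv id)).sum‖ ≤ Rad (d + 1) N / r0 := by
  have hr := r0_pos
  obtain ⟨S, h1, h2⟩ := signs_rad N (lift (d := d)) l.reverse (by simpa using hN)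
    (fun a ha => norm_lift (hl a (by simpa using ha)))
  refine ⟨S.reverse, by simp [h1], fun k => ?_⟩
  rw [List.take_reverse, List.map_reverse, List.sum_reverse]
  set j := S.length - k
  have h3 := proj_sum_sv (S.drop j)
  have h4 := norm_proj_le ((S.drop j).map (sv lift)).sum
  rw [h3, norm_smul, Real.norm_of_nonneg hr.le] at h4
  rw [le_div_iff₀ hr, mul_comm]
  exact h4.trans (h2 j)

end Vale.Agent.Lib.P262B
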