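import Vale.Agent.Lib.P262B.MainE

open MeasureTheory Set ProbabilityTheory WithLp Real
open scoped ENNReal

namespace Vale.Agent.Lib.P262B

lemma gauss_exp_moment : ∫⁻ s, ENNReal.ofReal (exp (s ^ 2 / 4)) ∂(gaussianReal 0 1) ≤ 2 := by
  have hm : Measurable fun s : ℝ => ENNReal.ofReal (exp (s ^ 2 / 4)) := by fun_prop
  rw [gaussian_lintegral hm]
  have h1 : ∀ s : ℝ, ENNReal.ofReal (exp (s ^ 2 / 4)) * ENNReal.ofReal (phi s)
      = ENNReal.ofReal ((√(2 * π))⁻¹ * exp (-(1 / 4) * s ^ 2)) := by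
    intro s
    rw [← ENNReal.ofReal_mul (exp_pos _).le, phi_eq]
    congr 1
    have : exp (s ^ 2 / 4) * ((√(2 * π))⁻¹ * exp (-s ^ 2 / 2))
        = (√(2 * π))⁻¹ * (exp (s ^ 2 / 4) * exp (-s ^ 2 / 2)) := by ring
    rw [this, ← exp_add]
    congr 2
    ring
  simp_rw [h1]
  have hi : Integrable fun s : ℝ => (√(2 * π))⁻¹ * exp (-(1 / 4) * s ^ 2) :=
    (integrable_exp_neg_mul_sq (by norm_num)).const_mul _
  rw [← ofReal_integral_eq_lintegral_ofReal hi (ae_of_all _ fun s => by positivity),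
    integral_const_mul, integral_gaussian]
  have hpi := Real.pi_pos
  have h2 : (√(2 * π))⁻¹ * √(π / (1 / 4)) ≤ 2 := by
    have e : π / (1 / 4) = 2 * (2 * π) := by field_simp; ring
    have hs : 0 < √(2 * π) := Real.sqrt_pos.2 (by positivity)
    have e2 : √(2 * (2 * π)) = √2 * √(2 * π) := Real.sqrt_mul (by norm_num) _
    rw [e, e2]
    have : (√(2 * π))⁻¹ * (√2 * √(2 * π)) = √2 := by field_simp
    rw [this]
    rw [Real.sqrt_le_left (by norm_num)]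
    norm_num
  calc ENNReal.ofReal ((√(2 * π))⁻¹ * √(π / (1 / 4))) ≤ ENNReal.ofReal 2 := ENNReal.ofReal_le_ofReal h2
    _ = 2 := by simp

lemma exp_moment (m : ℕ) :
    ∫⁻ x, ENNReal.ofReal (exp ((∑ i, (x i) ^ 2) / 4)) ∂gam m ≤ 2 ^ m := by
  induction m with
  | zero =>
    simp
  | succ m ih =>
    have hmeas : Measurable fun x : Fin (m + 1) → ℝ => ENNReal.ofReal (exp ((∑ i, (x i) ^ 2) / 4)) := by
      fun_prop
    rw [gam_succ_lintegral hmeas]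
    have hy : Measurable fun y : Fin m → ℝ => ENNReal.ofReal (exp ((∑ i, (y i) ^ 2) / 4)) := by
      fun_prop
    have h1 : ∀ (s : ℝ) (y : Fin m → ℝ),
        ENNReal.ofReal (exp ((∑ i, ((Fin.insertNth 0 s y : Fin (m + 1) → ℝ) i) ^ 2) / 4))
          = ENNReal.ofReal (exp (s ^ 2 / 4)) * ENNReal.ofReal (exp ((∑ i, (y i) ^ 2) / 4)) := by
      intro s y
      rw [← ENNReal.ofReal_mul (exp_pos _).le, ← exp_add, Fin.sum_univ_succ]
      congr 2
      simp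
      ring
    simp_rw [h1]
    have h2 : ∀ s : ℝ, ∫⁻ y, ENNReal.ofReal (exp (s ^ 2 / 4))
        * ENNReal.ofReal (exp ((∑ i, (y i) ^ 2) / 4)) ∂gam m ≤ ENNReal.ofReal (exp (s ^ 2 / 4)) * 2 ^ m := by
      intro s
      rw [lintegral_const_mul _ hy]
      exact mul_le_mul' le_rfl ih
    calc _ ≤ ∫⁻ s, ENNReal.ofReal (exp (s ^ 2 / 4)) * 2 ^ m ∂gaussianReal 0 1 := lintegral_mono h2
      _ = (∫⁻ s, ENNReal.ofReal (exp (s ^ 2 / 4)) ∂gaussianReal 0 1) * 2 ^ m :=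
          lintegral_mul_const _ (by fun_prop)
      _ ≤ 2 * 2 ^ m := mul_le_mul' gauss_exp_moment le_rfl
      _ = 2 ^ (m + 1) := by rw [pow_succ]; ring

/-- Gaussian tail of the Euclidean ball -/
lemma gauss_tail (m : ℕ) {R : ℝ} (hR : 0 ≤ R) :
    (stdGaussian (Eu m)).real (Metric.closedBall 0 R)ᶜ ≤ 2 ^ m * exp (-(R ^ 2 / 4)) := by
  have hg : stdGaussian (Eu m) = (gam m).map (toLp 2) := map_pi_eq_stdGaussian.symm
  have hT : Measurable (toLp 2 : (Fin m → ℝ) → Eu m) := by fun_prop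
  have hmeas : MeasurableSet (Metric.closedBall (0 : Eu m) R)ᶜ :=
    Metric.isClosed_closedBall.measurableSet.compl
  rw [hg, map_measureReal_apply hT hmeas]
  set A : Set (Fin m → ℝ) := (toLp 2) ⁻¹' (Metric.closedBall (0 : Eu m) R)ᶜ with hA
  have hsub : A ⊆ {x | ENNReal.ofReal (exp (R ^ 2 / 4)) ≤ ENNReal.ofReal (exp ((∑ i, (x i) ^ 2) / 4))} := by
    intro x hx
    have h1 : R < ‖(toLp 2 x : Eu m)‖ := by
      have : (toLp 2 x : Eu m) ∉ Metric.closedBall (0 : Eu m) R := hx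
      simpa using this
    have h2 : ‖(toLp 2 x : Eu m)‖ ^ 2 = ∑ i, (x i) ^ 2 := by
      rw [EuclideanSpace.real_norm_sq_eq]
    apply ENNReal.ofReal_le_ofReal
    apply exp_le_exp.2
    rw [← h2]
    have : R ^ 2 ≤ ‖(toLp 2 x : Eu m)‖ ^ 2 := pow_le_pow_left₀ hR h1.le 2
    linarith
  have hmk := mul_meas_ge_le_lintegral (μ := gam m)
    (f := fun x => ENNReal.ofReal (exp ((∑ i, (x i) ^ 2) / 4))) (by fun_prop)
    (ENNReal.ofReal (exp (R ^ 2 / 4)))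
  have h3 : ENNReal.ofReal (exp (R ^ 2 / 4)) * gam m A ≤ 2 ^ m :=
    (mul_le_mul' le_rfl (measure_mono hsub)).trans (hmk.trans (exp_moment m))
  have h4 := ENNReal.toReal_mono (by simp) h3
  rw [ENNReal.toReal_mul, ENNReal.toReal_ofReal (exp_pos _).le] at h4
  have h5 : ((2:ℝ≥0∞) ^ m).toReal = 2 ^ m := by simp
  rw [h5] at h4
  have h6 : (gam m).real A = (gam m A).toReal := rfl
  rw [h6, exp_neg]
  have hp := exp_pos (R ^ 2 / 4)
  rw [← div_eq_mul_inv, le_div_iff₀ hp]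
  linarith

/-- the radius -/
noncomputable def Rad (m N : ℕ) : ℝ := 2 * √((m:ℝ) + log (2 * (N:ℝ) + 2))

lemma log_nonneg' (N : ℕ) : 0 ≤ log (2 * (N:ℝ) + 2) := by
  apply Real.log_nonneg
  have : (0:ℝ) ≤ N := by positivity
  linarith

lemma Rad_nonneg (m N : ℕ) : 0 ≤ Rad m N := by
  unfold Rad
  positivity

lemma gauss_tail_Rad (m N : ℕ) :
    (stdGaussian (Eu m)).real (Metric.closedBall 0 (Rad m N))ᶜ ≤ 1 / (2 * (N:ℝ) + 2) := by
  refine (gauss_tail m (Rad_nonneg m N)).trans ?_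
  have hN : (0:ℝ) < 2 * (N:ℝ) + 2 := by positivity
  have hl := log_nonneg' N
  have e : Rad m N ^ 2 / 4 = (m:ℝ) + log (2 * (N:ℝ) + 2) := by
    unfold Rad
    rw [mul_pow, Real.sq_sqrt (by positivity)]
    ring
  rw [e, neg_add, exp_add, exp_neg (log _), exp_log hN, exp_neg]
  have h2 : (2:ℝ) ^ m ≤ exp m := by
    have h3 : (2:ℝ) ≤ exp 1 := by
      have := Real.add_one_le_exp (1:ℝ)
      linarith
    calc (2:ℝ) ^ m ≤ (exp 1) ^ m := pow_le_pow_left₀ (by norm_num) h3 m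
      _ = exp m := by rw [← exp_nat_mul]; simp
  have hex := exp_pos (m:ℝ)
  have : (2:ℝ) ^ m * ((exp m)⁻¹ * (2 * (N:ℝ) + 2)⁻¹)
      = ((2:ℝ) ^ m / exp m) * (2 * (N:ℝ) + 2)⁻¹ := by
    rw [div_eq_mul_inv]
    ring
  rw [this, one_div]
  have h4 : (2:ℝ) ^ m / exp m ≤ 1 := (div_le_one hex).2 h2
  calc _ ≤ 1 * (2 * (N:ℝ) + 2)⁻¹ := mul_le_mul_of_nonneg_right h4 (by positivity)
    _ = _ := one_mul _

end Vale.Agent.Lib.P262B
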